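import Vale.Agent.Lib.P047.Five.Book0

namespace Vale.Agent.Lib.P047.Five

open Finset
open scoped symmDiff

variable {ι : Type*} [Fintype ι] [DecidableEq ι] {G : Finset ι → ℤ} {t : ι → ℤ}

omit [Fintype ι] [DecidableEq ι] in
private lemma sum_eps_aux (ε : ℤ) (S : Finset ι) (f : ι → ℤ) :
    ∑ k ∈ S, ε * (1 - 2 * f k) = ε * ((S.card : ℤ) - 2 * ∑ k ∈ S, f k) := by
  rw [← Finset.mul_sum, Finset.sum_sub_distrib, ← Finset.mul_sum, Finset.sum_const,
    nsmul_eq_mul, mul_one]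

private lemma sum_flip_aux (t : ι → ℤ) (i : ι) :
    ∑ l, (if l ∈ ({i} : Finset ι) then -t l else t l) = ∑ l, t l - 2 * t i := by
  have h : ∀ l, (if l ∈ ({i} : Finset ι) then -t l else t l)
      = t l - (if l = i then 2 * t l else 0) := by
    intro l
    by_cases hl : l = i
    · rw [if_pos (Finset.mem_singleton.mpr hl), if_pos hl]
      ring
    · rw [if_neg (fun hc => hl (Finset.mem_singleton.mp hc)), if_neg hl, sub_zero]
  rw [Finset.sum_congr rfl (fun l _ => h l), Finset.sum_sub_distrib, Finset.sum_ite_eq',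
    if_pos (Finset.mem_univ i)]

/-- The level-one identity at the neighbours of the top point, in count form. -/
theorem Good.E1 (hG : Good G t) (i : ι) :
    (toRaw G t).ε * ((toRaw G t).K - 2 * (toRaw G t).t i) =
      30 + 2 * ((toRaw G t).n - 8) * (toRaw G t).deg i - 2 * (toRaw G t).mu
        - (∑ j ∈ univ.erase i, (toRaw G t).τ i j)
        - ((toRaw G t).n ^ 2 - 15 * (toRaw G t).n + 58) * (toRaw G t).a i := by
  have hlvl := hG.lvl {i}
  have heps := hG.eps_sq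
  have hGi := hG.G_eq {i}
  have hnb : nb G {i}
      = G ∅ * ((Fintype.card ι : ℤ) - 2 * ∑ k ∈ univ.erase i, ind G {i, k}) := by
    rw [nb_single, Finset.sum_congr rfl (fun k _ => hG.G_eq {i, k}), sum_eps_aux,
      card_erase_int]
    ring
  have hs1 : ∑ l, G {l} = G ∅ * ((Fintype.card ι : ℤ) - 2 * ∑ l, ind G {l}) := by
    rw [Finset.sum_congr rfl (fun l _ => hG.G_eq {l}), sum_eps_aux, Finset.card_univ]
  have hs2 : ∑ k ∈ univ.erase i, ind G {k} = ∑ l, ind G {l} - ind G {i} :=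
    Finset.sum_erase_eq_sub (Finset.mem_univ i)
  have hin : ∀ k ∈ univ.erase i, ∑ l ∈ ({i, k} : Finset ι)ᶜ, G (insert l {i, k})
      = G ∅ * ((Fintype.card ι : ℤ) - 2
          - 2 * ∑ l ∈ ({i, k} : Finset ι)ᶜ, ind G (insert l {i, k})) := by
    intro k hk
    have hik : i ≠ k := fun h => (Finset.ne_of_mem_erase hk) h.symm
    rw [Finset.sum_congr rfl (fun l _ => hG.G_eq (insert l {i, k})), sum_eps_aux,
      card_compl_pair_int i k hik]
  have h3 : ∑ k ∈ univ.erase i,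
        (G {i} + G {k} + ∑ l ∈ ({i, k} : Finset ι)ᶜ, G (insert l {i, k}))
      = ∑ k ∈ univ.erase i, (G ∅ * (1 - 2 * ind G {i}) + G ∅ * (1 - 2 * ind G {k})
          + G ∅ * ((Fintype.card ι : ℤ) - 2
            - 2 * ∑ l ∈ ({i, k} : Finset ι)ᶜ, ind G (insert l {i, k}))) := by
    apply Finset.sum_congr rfl
    intro k hk
    rw [hin k hk, ← hG.G_eq {i}, ← hG.G_eq {k}]
  have hA : ∑ _k ∈ univ.erase i, G ∅ * (1 - 2 * ind G {i})
      = ((Fintype.card ι : ℤ) - 1) * (G ∅ * (1 - 2 * ind G {i})) := by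
    rw [Finset.sum_const, nsmul_eq_mul, card_erase_int]
  have hB : ∑ k ∈ univ.erase i, G ∅ * (1 - 2 * ind G {k})
      = G ∅ * ((Fintype.card ι : ℤ) - 1 - 2 * (∑ l, ind G {l} - ind G {i})) := by
    rw [sum_eps_aux, card_erase_int, hs2]
  have hC : ∑ k ∈ univ.erase i, G ∅ * ((Fintype.card ι : ℤ) - 2
        - 2 * ∑ l ∈ ({i, k} : Finset ι)ᶜ, ind G (insert l {i, k}))
      = G ∅ * (((Fintype.card ι : ℤ) - 1) * ((Fintype.card ι : ℤ) - 2)
        - 2 * ∑ k ∈ univ.erase i, ∑ l ∈ ({i, k} : Finset ι)ᶜ, ind G (insert l {i, k})) := by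
    rw [← Finset.mul_sum, Finset.sum_sub_distrib, Finset.sum_const, nsmul_eq_mul,
      card_erase_int, ← Finset.mul_sum]
  have hnbnb : nb (nb G) {i} = G ∅ * ((Fintype.card ι : ℤ) ^ 2 - 4 * ∑ l, ind G {l}
      - 2 * ((Fintype.card ι : ℤ) - 2) * ind G {i}
      - 2 * ∑ k ∈ univ.erase i, ∑ l ∈ ({i, k} : Finset ι)ᶜ, ind G (insert l {i, k})) := by
    rw [nb_nb_single, hs1, h3, Finset.sum_add_distrib, Finset.sum_add_distrib, hA, hB, hC]
    ring
  rw [hGi, hnb, hnbnb, sum_flip_aux] at hlvl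
  simp only [toRaw, Raw.n, Raw.mu, Raw.deg]
  have h2 : 2 * (G ∅ * (∑ l, t l - 2 * t i)) =
      2 * (30 + 2 * ((Fintype.card ι : ℤ) - 8) * ∑ j ∈ univ.erase i, ind G {i, j}
        - 2 * ∑ l, ind G {l}
        - (∑ j ∈ univ.erase i, ∑ k ∈ ({i, j} : Finset ι)ᶜ, ind G (insert k {i, j}))
        - ((Fintype.card ι : ℤ) ^ 2 - 15 * (Fintype.card ι : ℤ) + 58) * ind G {i}) := by
    linear_combination (-(G ∅)) * hlvl
      + (60 + 4 * ((Fintype.card ι : ℤ) - 8) * ∑ j ∈ univ.erase i, ind G {i, j}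
        - 4 * ∑ l, ind G {l}
        - 2 * (∑ j ∈ univ.erase i, ∑ k ∈ ({i, j} : Finset ι)ᶜ, ind G (insert k {i, j}))
        - 2 * ((Fintype.card ι : ℤ) ^ 2 - 15 * (Fintype.card ι : ℤ) + 58) * ind G {i}) * heps
  linarith

end Vale.Agent.Lib.P047.Five
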