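import Vale.Agent.Lib.P047.Five.Book0

namespace Vale.Agent.Lib.P047.Five

open Finset
open scoped symmDiff

variable {ι : Type*} [Fintype ι] [DecidableEq ι] {G : Finset ι → ℤ} {t : ι → ℤ}

/-- A sum of values of `G` in terms of the number of minus points. -/
private theorem bookE2_sum (hG : Good G t) {κ : Type*} (s : Finset κ) (R : κ → Finset ι) (c : ℤ)
    (hc : (s.card : ℤ) = c) :
    ∑ k ∈ s, G (R k) = G ∅ * (c - 2 * ∑ k ∈ s, ind G (R k)) := by
  have h1 : ∀ k ∈ s, G (R k) = G ∅ * (1 - 2 * ind G (R k)) := fun k _ => hG.G_eq (R k)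
  rw [Finset.sum_congr rfl h1, ← Finset.mul_sum, Finset.sum_sub_distrib, ← Finset.mul_sum,
    Finset.sum_const, nsmul_eq_mul, mul_one, hc]

/-- Splitting off the point `j` from the sum over the points other than `i`. -/
private theorem bookE2_erase (i j : ι) (hij : i ≠ j) (f : ι → ℤ) :
    ∑ l ∈ univ.erase i, f l = f j + ∑ l ∈ ({i, j} : Finset ι)ᶜ, f l := by
  have h : univ.erase i = insert j (({i, j} : Finset ι)ᶜ) := by
    ext x
    simp only [mem_erase, mem_univ, and_true, mem_insert, mem_compl, mem_singleton]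
    constructor
    · intro hx
      by_cases hxj : x = j
      · exact Or.inl hxj
      · exact Or.inr (fun h' => h'.elim hx hxj)
    · intro hx
      rcases hx with hx | hx
      · rw [hx]
        exact Ne.symm hij
      · exact fun hxi => hx (Or.inl hxi)
  have hj : j ∉ (({i, j} : Finset ι)ᶜ) := by
    rw [mem_compl, not_not]
    exact mem_insert_of_mem (mem_singleton_self j)
  rw [h, Finset.sum_insert hj]

/-- The final algebra: the level-one identity multiplied by the sign of the top point. -/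
private theorem bookE2_alg (e N H A T D V Gij nbG nbnbG X : ℤ) (hsq : e * e = 1)
    (F1 : Gij = e * (1 - 2 * H)) (F2 : nbG = e * (N - 2 * A - 2 * T))
    (F3 : nbnbG = e * (N ^ 2 - 4 * D - 2 * (N - 4) * H - 2 * V))
    (hlvl : (N - 6) * (N - 10) * Gij - 2 * (N - 8) * nbG + nbnbG = 2 * X) :
    e * X = 30 - (N - 7) * (N - 8) * H + 2 * (N - 8) * (A + T) - 2 * D - V := by
  have h2 : 2 * (e * X)
      = 2 * (30 - (N - 7) * (N - 8) * H + 2 * (N - 8) * (A + T) - 2 * D - V) := by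
    linear_combination (-e) * hlvl + e * (N - 6) * (N - 10) * F1 - 2 * e * (N - 8) * F2
      + e * F3 + (2 * (30 - (N - 7) * (N - 8) * H + 2 * (N - 8) * (A + T) - 2 * D - V)) * hsq
  linarith

/-- The level-one identity at the points at distance two from the top point, in count form. -/
theorem Good.E2 (hG : Good G t) (i j : ι) (hij : i ≠ j) :
    (toRaw G t).ε * ((toRaw G t).K - 2 * (toRaw G t).t i - 2 * (toRaw G t).t j) =
      30 - ((toRaw G t).n - 7) * ((toRaw G t).n - 8) * (toRaw G t).h i j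
        + 2 * ((toRaw G t).n - 8) * ((toRaw G t).a i + (toRaw G t).a j + (toRaw G t).τ i j)
        - 2 * ((toRaw G t).deg i + (toRaw G t).deg j) - (toRaw G t).ν i j := by
  have hsq := hG.eps_sq
  have hA : ∑ l, (if l ∈ ({i, j} : Finset ι) then -t l else t l)
      = (∑ l, t l) - 2 * t i - 2 * t j := by
    have h1 : ∀ l, (if l ∈ ({i, j} : Finset ι) then -t l else t l)
        = t l - (if l ∈ ({i, j} : Finset ι) then 2 * t l else 0) := by
      intro l
      split_ifs <;> ring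
    rw [Finset.sum_congr rfl (fun l _ => h1 l), Finset.sum_sub_distrib, Finset.sum_ite_mem,
      Finset.univ_inter, Finset.sum_pair hij]
    ring
  have hlvl := hG.lvl {i, j}
  rw [hA] at hlvl
  have F1 : G {i, j} = G ∅ * (1 - 2 * ind G {i, j}) := hG.G_eq {i, j}
  have S1 : ∑ k ∈ ({i, j} : Finset ι)ᶜ, G (insert k {i, j})
      = G ∅ * (((Fintype.card ι : ℤ) - 2)
        - 2 * ∑ k ∈ ({i, j} : Finset ι)ᶜ, ind G (insert k {i, j})) :=
    bookE2_sum hG _ _ _ (card_compl_pair_int i j hij)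
  have F2 : nb G {i, j} = G ∅ * ((Fintype.card ι : ℤ) - 2 * (ind G {i} + ind G {j})
      - 2 * ∑ k ∈ ({i, j} : Finset ι)ᶜ, ind G (insert k {i, j})) := by
    rw [nb_pair G i j hij, hG.G_eq {i}, hG.G_eq {j}, S1]
    ring
  have S2 : ∑ l ∈ univ.erase i, G {i, l}
      = G ∅ * (((Fintype.card ι : ℤ) - 1) - 2 * ∑ l ∈ univ.erase i, ind G {i, l}) :=
    bookE2_sum hG _ _ _ (card_erase_int i)
  have S3 : ∑ l ∈ univ.erase j, G {j, l}
      = G ∅ * (((Fintype.card ι : ℤ) - 1) - 2 * ∑ l ∈ univ.erase j, ind G {j, l}) :=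
    bookE2_sum hG _ _ _ (card_erase_int j)
  have S4a : ∑ k ∈ ({i, j} : Finset ι)ᶜ, G {i, k}
      = G ∅ * (((Fintype.card ι : ℤ) - 2) - 2 * ∑ k ∈ ({i, j} : Finset ι)ᶜ, ind G {i, k}) :=
    bookE2_sum hG _ _ _ (card_compl_pair_int i j hij)
  have S4b : ∑ k ∈ ({i, j} : Finset ι)ᶜ, G {j, k}
      = G ∅ * (((Fintype.card ι : ℤ) - 2) - 2 * ∑ k ∈ ({i, j} : Finset ι)ᶜ, ind G {j, k}) :=
    bookE2_sum hG _ _ _ (card_compl_pair_int i j hij)
  have E1 : ∑ l ∈ univ.erase i, ind G {i, l}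
      = ind G {i, j} + ∑ k ∈ ({i, j} : Finset ι)ᶜ, ind G {i, k} :=
    bookE2_erase i j hij (fun l => ind G {i, l})
  have E2 : ∑ l ∈ univ.erase j, ind G {j, l}
      = ind G {i, j} + ∑ k ∈ ({i, j} : Finset ι)ᶜ, ind G {j, k} := by
    have h := bookE2_erase j i (Ne.symm hij) (fun l => ind G {j, l})
    rw [Finset.pair_comm j i] at h
    exact h
  have S4c : ∑ k ∈ ({i, j} : Finset ι)ᶜ, ∑ l ∈ (insert k ({i, j} : Finset ι))ᶜ,
        G (insert l (insert k {i, j}))
      = G ∅ * (((Fintype.card ι : ℤ) - 2) * ((Fintype.card ι : ℤ) - 3)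
        - 2 * ∑ k ∈ ({i, j} : Finset ι)ᶜ, ∑ l ∈ (insert k ({i, j} : Finset ι))ᶜ,
          ind G (insert l (insert k {i, j}))) := by
    have h1 : ∀ k ∈ ({i, j} : Finset ι)ᶜ, ∑ l ∈ (insert k ({i, j} : Finset ι))ᶜ,
          G (insert l (insert k {i, j}))
        = G ∅ * (((Fintype.card ι : ℤ) - 3)
          - 2 * ∑ l ∈ (insert k ({i, j} : Finset ι))ᶜ, ind G (insert l (insert k {i, j}))) :=
      fun k hk => bookE2_sum hG _ _ _ (card_compl_triple_int i j k hij hk)
    rw [Finset.sum_congr rfl h1, ← Finset.mul_sum, Finset.sum_sub_distrib, ← Finset.mul_sum,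
      Finset.sum_const, nsmul_eq_mul, card_compl_pair_int i j hij]
  have F3 : nb (nb G) {i, j} = G ∅ * ((Fintype.card ι : ℤ) ^ 2
      - 4 * ((∑ l ∈ univ.erase i, ind G {i, l}) + ∑ l ∈ univ.erase j, ind G {j, l})
      - 2 * ((Fintype.card ι : ℤ) - 4) * ind G {i, j}
      - 2 * ∑ k ∈ ({i, j} : Finset ι)ᶜ, ∑ l ∈ (insert k ({i, j} : Finset ι))ᶜ,
          ind G (insert l (insert k {i, j}))) := by
    rw [nb_nb_pair G i j hij, S2, S3, Finset.sum_add_distrib, Finset.sum_add_distrib,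
      Finset.sum_add_distrib, Finset.sum_const, nsmul_eq_mul, card_compl_pair_int i j hij,
      S4a, S4b, S4c, F1, E1, E2]
    ring
  show G ∅ * ((∑ l, t l) - 2 * t i - 2 * t j)
    = 30 - ((Fintype.card ι : ℤ) - 7) * ((Fintype.card ι : ℤ) - 8) * ind G {i, j}
      + 2 * ((Fintype.card ι : ℤ) - 8) * (ind G {i} + ind G {j}
        + ∑ k ∈ ({i, j} : Finset ι)ᶜ, ind G (insert k {i, j}))
      - 2 * ((∑ l ∈ univ.erase i, ind G {i, l}) + ∑ l ∈ univ.erase j, ind G {j, l})
      - ∑ k ∈ ({i, j} : Finset ι)ᶜ, ∑ l ∈ (insert k ({i, j} : Finset ι))ᶜ,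
          ind G (insert l (insert k {i, j}))
  exact bookE2_alg (G ∅) (Fintype.card ι : ℤ) (ind G {i, j}) (ind G {i} + ind G {j}) _ _ _
    (G {i, j}) (nb G {i, j}) (nb (nb G) {i, j}) _ hsq F1 F2 F3 hlvl

end Vale.Agent.Lib.P047.Five
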