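import Vale.Agent.Lib.P047.Five.Book0

namespace Vale.Agent.Lib.P047.Five

open Finset
open scoped symmDiff

variable {ι : Type*} [Fintype ι] [DecidableEq ι] {G : Finset ι → ℤ} {t : ι → ℤ}

omit [Fintype ι] in
private theorem bookI_sd_empty (i : ι) : (∅ : Finset ι) ∆ {i} = {i} := by
  ext x
  simp [Finset.mem_symmDiff]

omit [Fintype ι] in
private theorem bookI_sd_self (i : ι) : ({i} : Finset ι) ∆ {i} = ∅ := by
  ext x
  simp

omit [Fintype ι] in
private theorem bookI_sd_pair (i j : ι) (hij : i ≠ j) : ({i} : Finset ι) ∆ {j} = {i, j} := by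
  ext x
  by_cases hxi : x = i
  · subst hxi
    simp [Finset.mem_symmDiff, hij]
  · by_cases hxj : x = j
    · subst hxj
      simp [Finset.mem_symmDiff, hxi]
    · simp [Finset.mem_symmDiff, hxi, hxj]

omit [Fintype ι] in
private theorem bookI_sd_pair_left (i j : ι) (hij : i ≠ j) :
    ({i, j} : Finset ι) ∆ {j} = {i} := by
  ext x
  by_cases hxi : x = i
  · subst hxi
    simp [Finset.mem_symmDiff, hij]
  · by_cases hxj : x = j
    · subst hxj
      simp [Finset.mem_symmDiff, hxi]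
    · simp [Finset.mem_symmDiff, hxi, hxj]

omit [Fintype ι] in
private theorem bookI_sd_triple (i j k : ι) (hij : i ≠ j) (hki : k ≠ i) (hkj : k ≠ j) :
    ({i, k} : Finset ι) ∆ {j} = insert k {i, j} := by
  ext x
  by_cases hxi : x = i
  · subst hxi
    simp [Finset.mem_symmDiff, hij]
  · by_cases hxj : x = j
    · subst hxj
      have hjk : x ≠ k := fun h => hkj h.symm
      simp [Finset.mem_symmDiff, hxi, hjk]
    · by_cases hxk : x = k
      · subst hxk
        simp [Finset.mem_symmDiff, hxj]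
      · simp [Finset.mem_symmDiff, hxi, hxj, hxk]

omit [Fintype ι] in
private theorem bookI_dd2_empty (G : Finset ι → ℤ) (i j : ι) (hij : i ≠ j) :
    dd2 G i j ∅ = G ∅ - G {i} - G {j} + G {i, j} := by
  unfold dd2
  rw [bookI_sd_empty, bookI_sd_empty, bookI_sd_pair i j hij]

omit [Fintype ι] in
private theorem bookI_dd2_i (G : Finset ι → ℤ) (i j : ι) (hij : i ≠ j) :
    dd2 G i j {i} = -(G ∅ - G {i} - G {j} + G {i, j}) := by
  unfold dd2
  rw [bookI_sd_self, bookI_sd_empty, bookI_sd_pair i j hij]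
  ring

omit [Fintype ι] in
private theorem bookI_dd2_j (G : Finset ι → ℤ) (i j : ι) (hij : i ≠ j) :
    dd2 G i j {j} = -(G ∅ - G {i} - G {j} + G {i, j}) := by
  unfold dd2
  rw [bookI_sd_self, bookI_sd_pair j i (Ne.symm hij), Finset.pair_comm j i,
    bookI_sd_pair_left i j hij]
  ring

omit [Fintype ι] in
private theorem bookI_dd2_k (G : Finset ι → ℤ) (i j k : ι) (hij : i ≠ j) (hki : k ≠ i)
    (hkj : k ≠ j) :
    dd2 G i j {k} = G {k} - G {i, k} - G {j, k} + G (insert k {i, j}) := by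
  unfold dd2
  rw [bookI_sd_pair k i hki, bookI_sd_pair k j hkj, Finset.pair_comm k i, Finset.pair_comm k j,
    bookI_sd_triple i j k hij hki hkj]

private theorem bookI_sum_split (f : ι → ℤ) (i j : ι) (hij : i ≠ j) :
    ∑ k, f k = f i + f j + ∑ k ∈ ({i, j} : Finset ι)ᶜ, f k := by
  rw [← Finset.sum_add_sum_compl ({i, j} : Finset ι) f, Finset.sum_pair hij]

private theorem bookI_sum_erase (f : ι → ℤ) (i j : ι) (hij : i ≠ j) :
    ∑ k ∈ univ.erase i, f k = f j + ∑ k ∈ ({i, j} : Finset ι)ᶜ, f k := by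
  have h1 := bookI_sum_split f i j hij
  have h2 : ∑ k, f k = f i + ∑ k ∈ univ.erase i, f k := by
    rw [Finset.add_sum_erase univ f (Finset.mem_univ i)]
  linarith

/-- The local form of `W`. -/
theorem W_eq (G : Finset ι → ℤ) (i j : ι) (hij : i ≠ j) :
    W G i j = (8 - (Fintype.card ι : ℤ)) * (G ∅ - G {i} - G {j} + G {i, j})
      + ∑ k ∈ ({i, j} : Finset ι)ᶜ, (G {k} - G {i, k} - G {j, k} + G (insert k {i, j})) := by
  unfold W
  rw [nb_empty, bookI_sum_split (fun k => dd2 G i j {k}) i j hij, bookI_dd2_empty G i j hij,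
    bookI_dd2_i G i j hij, bookI_dd2_j G i j hij]
  have hsum : ∑ k ∈ ({i, j} : Finset ι)ᶜ, dd2 G i j {k}
      = ∑ k ∈ ({i, j} : Finset ι)ᶜ, (G {k} - G {i, k} - G {j, k} + G (insert k {i, j})) := by
    refine Finset.sum_congr rfl (fun k hk => ?_)
    have hk' : k ∉ ({i, j} : Finset ι) := Finset.mem_compl.mp hk
    have hki : k ≠ i := fun h => hk' (by simp [h])
    have hkj : k ≠ j := fun h => hk' (by simp [h])
    exact bookI_dd2_k G i j k hij hki hkj
  rw [hsum]
  ring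

/-- `W = -2 e`. -/
theorem Good.W_eq_e (hG : Good G t) (i j : ι) (hij : i ≠ j) :
    W G i j = -2 * (toRaw G t).e i j := by
  rw [W_eq G i j hij]
  have hsum : ∑ k ∈ ({i, j} : Finset ι)ᶜ,
        (G {k} - G {i, k} - G {j, k} + G (insert k {i, j}))
      = 2 * G ∅ * (∑ k ∈ ({i, j} : Finset ι)ᶜ, ind G {i, k}
          + ∑ k ∈ ({i, j} : Finset ι)ᶜ, ind G {j, k}
          - ∑ k ∈ ({i, j} : Finset ι)ᶜ, ind G {k}
          - ∑ k ∈ ({i, j} : Finset ι)ᶜ, ind G (insert k {i, j})) := by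
    rw [← Finset.sum_add_distrib, ← Finset.sum_sub_distrib, ← Finset.sum_sub_distrib,
      Finset.mul_sum]
    refine Finset.sum_congr rfl (fun k _ => ?_)
    rw [hG.G_eq {k}, hG.G_eq {i, k}, hG.G_eq {j, k}, hG.G_eq (insert k {i, j})]
    ring
  have hdi : (toRaw G t).deg i = ind G {i, j} + ∑ k ∈ ({i, j} : Finset ι)ᶜ, ind G {i, k} :=
    bookI_sum_erase (fun k => ind G {i, k}) i j hij
  have hdj : (toRaw G t).deg j = ind G {i, j} + ∑ k ∈ ({i, j} : Finset ι)ᶜ, ind G {j, k} := by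
    have h := bookI_sum_erase (fun k => ind G {j, k}) j i (Ne.symm hij)
    have hc : ({j, i} : Finset ι) = {i, j} := Finset.pair_comm j i
    rw [hc] at h
    exact h
  have hmu : (toRaw G t).mu = ind G {i} + ind G {j} + ∑ k ∈ ({i, j} : Finset ι)ᶜ, ind G {k} :=
    bookI_sum_split (fun k => ind G {k}) i j hij
  have he : (toRaw G t).e i j = G ∅ * ((∑ k ∈ ({i, j} : Finset ι)ᶜ, ind G (insert k {i, j}))
      - (toRaw G t).deg i - (toRaw G t).deg j + (toRaw G t).mu
      - ((Fintype.card ι : ℤ) - 10) * ind G {i, j}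
      + ((Fintype.card ι : ℤ) - 9) * (ind G {i} + ind G {j})) := rfl
  rw [he, hsum, hdi, hdj, hmu, hG.G_eq {i}, hG.G_eq {j}, hG.G_eq {i, j}]
  ring

theorem Good.I1 (hG : Good G t) (i j : ι) (hij : i ≠ j) :
    (toRaw G t).K - 2 * (toRaw G t).e i j ≤ 34 := by
  have h := hG.id1 i j hij
  rw [hG.W_eq_e i j hij] at h
  have hK : (toRaw G t).K = ∑ l, t l := rfl
  rw [hK]
  linarith

theorem Good.I2 (hG : Good G t) (i j : ι) (hij : i ≠ j) :
    (toRaw G t).K - 2 * (toRaw G t).t j + 2 * (toRaw G t).e i j ≤ 34 := by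
  have h := hG.id2 i j hij
  rw [hG.W_eq_e i j hij] at h
  have hK : (toRaw G t).K = ∑ l, t l := rfl
  have ht : (toRaw G t).t j = t j := rfl
  rw [hK, ht]
  linarith

end Vale.Agent.Lib.P047.Five
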