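import Vale.Agent.Lib.P047.Five.Basic

/-!
# P047, degree five: at least fourteen variables
-/

namespace Vale.Agent.Lib.P047.Five

open Finset

variable {ι : Type*} [Fintype ι] [DecidableEq ι] {L : Raw ι}

/-- The number of indices other than `i`, as an integer. -/
private lemma card_erase_int (i : ι) :
    ((univ.erase i).card : ℤ) = (Fintype.card ι : ℤ) - 1 := by
  rw [Finset.card_erase_of_mem (mem_univ i), Finset.card_univ,
    Nat.cast_sub (Fintype.card_pos_iff.mpr ⟨i⟩), Nat.cast_one]

/-- Valid local data with `K = 36` do not exist on fourteen or more variables. -/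
theorem Valid.large (hL : Valid L) (hK : L.K = 36) (hn : 14 ≤ Fintype.card ι) : False := by
  have h2 : 2 ≤ Fintype.card ι := by omega
  have ht2 : ∀ i, 2 ≤ L.t i := fun i => hL.t_ge_two hK h2 i
  have hsum : ∑ i, L.t i = 36 := by rw [hL.hK, hK]
  -- (a) at most eighteen variables
  have hc18 : (Fintype.card ι : ℤ) * 2 ≤ 36 := by
    have h : ∑ _i : ι, (2 : ℤ) ≤ ∑ i, L.t i := Finset.sum_le_sum (fun i _ => ht2 i)
    rw [Finset.sum_const, Finset.card_univ, nsmul_eq_mul] at h
    linarith
  -- (b) exactly seventeen variables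
  have hc17 : Fintype.card ι = 17 := by
    by_cases hex : ∃ i, L.t i = 2
    · obtain ⟨i, hi⟩ := hex
      obtain ⟨r, hr⟩ := hL.card_mod_of_t_eq_two hK i hi
      have hn' : L.n = (Fintype.card ι : ℤ) := rfl
      rw [hn'] at hr
      omega
    · exfalso
      have ht3 : ∀ i, 3 ≤ L.t i := by
        intro i
        have h := ht2 i
        have hne : L.t i ≠ 2 := fun h' => hex ⟨i, h'⟩
        omega
      have h : ∑ _i : ι, (3 : ℤ) ≤ ∑ i, L.t i := Finset.sum_le_sum (fun i _ => ht3 i)
      rw [Finset.sum_const, Finset.card_univ, nsmul_eq_mul] at h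
      have h' : (Fintype.card ι : ℤ) * 3 ≤ 36 := by linarith
      omega
  -- (c) seventeen variables
  have hcz : (Fintype.card ι : ℤ) = 17 := by exact_mod_cast hc17
  have hcard : ∀ i : ι, ((univ.erase i).card : ℤ) = 16 := by
    intro i
    rw [card_erase_int, hcz]
    norm_num
  have hx : ∀ i : ι, ∑ j ∈ univ.erase i, L.e i j = 16 := by
    intro i
    have hlow : ∑ _j ∈ univ.erase i, (1 : ℤ) ≤ ∑ j ∈ univ.erase i, L.e i j :=
      Finset.sum_le_sum (fun j hj => hL.e_ge hK i j (Finset.ne_of_mem_erase hj).symm)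
    rw [Finset.sum_const, nsmul_eq_mul, hcard i] at hlow
    have hup : ∑ j ∈ univ.erase i, L.e i j ≤ ∑ j ∈ univ.erase i, (L.t j - 1) :=
      Finset.sum_le_sum (fun j hj => (hL.e_le hK i j (Finset.ne_of_mem_erase hj).symm).2)
    rw [Finset.sum_sub_distrib, Finset.sum_const, nsmul_eq_mul, hcard i, sum_erase_eq L.t i,
      hsum] at hup
    obtain ⟨r, hr⟩ := hL.sum_e_mod i
    have h := ht2 i
    omega
  have hD2 := hL.sum_sum_e
  rw [Finset.sum_congr rfl (fun i _ => hx i), Finset.sum_const, Finset.card_univ, nsmul_eq_mul,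
    hcz, hK] at hD2
  rcases hL.hε with he | he
  · rw [he] at hD2
    norm_num at hD2
    omega
  · rw [he] at hD2
    norm_num at hD2
    omega

end Vale.Agent.Lib.P047.Five
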