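import Vale.Agent.Lib.P047.Five.Basic

/-!
# P047, degree five: the case of 13 variables, top value -1
-/

namespace Vale.Agent.Lib.P047.Five

open Finset

variable {ι : Type*} [Fintype ι] [DecidableEq ι] {L : Raw ι}

/-- Each vertex has twelve others. -/
private lemma tn_card_erase (hn : Fintype.card ι = 13) (i : ι) :
    ((univ.erase i).card : ℤ) = 12 := by
  rw [Finset.card_erase_of_mem (Finset.mem_univ i), Finset.card_univ, hn]
  norm_num

/-- The sum of a constant over the ordered pairs. -/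
private lemma tn_dconst (hn : Fintype.card ι = 13) (c : ℤ) :
    ∑ i : ι, ∑ _j ∈ univ.erase i, c = 156 * c := by
  have e1 : ∀ i ∈ (univ : Finset ι), ∑ _j ∈ univ.erase i, c = 12 * c := by
    intro i _
    rw [Finset.sum_const, nsmul_eq_mul, tn_card_erase hn i]
  rw [Finset.sum_congr rfl e1, Finset.sum_const, Finset.card_univ, hn, nsmul_eq_mul]
  push_cast
  ring

/-- The double sum of an expression that is linear in the two vertices of a pair. -/
private lemma tn_dsum (hn : Fintype.card ι = 13) (P : ι → ℤ) (E : ι → ι → ℤ) (c k : ℤ) :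
    ∑ i, ∑ j ∈ univ.erase i, (c + (P i + P j) + k * E i j)
      = 156 * c + 24 * ∑ i, P i + k * ∑ i, ∑ j ∈ univ.erase i, E i j := by
  have e1 : ∀ i ∈ (univ : Finset ι), ∑ j ∈ univ.erase i, (c + (P i + P j) + k * E i j)
      = ∑ _j ∈ univ.erase i, c + (∑ _j ∈ univ.erase i, P i + ∑ j ∈ univ.erase i, P j)
        + k * ∑ j ∈ univ.erase i, E i j := by
    intro i _
    rw [Finset.sum_add_distrib, Finset.sum_add_distrib, Finset.sum_add_distrib,
      ← Finset.mul_sum]
  rw [Finset.sum_congr rfl e1, Finset.sum_add_distrib, Finset.sum_add_distrib,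
    Finset.sum_add_distrib, tn_dconst hn c, sum_erase_left P, sum_erase_right P,
    ← Finset.mul_sum, hn]
  push_cast
  ring

theorem Valid.thirteen_neg (hL : Valid L) (hK : L.K = 36) (hn : Fintype.card ι = 13)
    (he : L.ε = -1) : False := by
  have hn' : L.n = 13 := by
    unfold Raw.n
    rw [hn]
    norm_num
  have ht2 : ∀ i, 2 ≤ L.t i := fun i => hL.t_ge_two hK (by omega) i
  have hsumt : ∑ i, L.t i = 36 := hL.hK.trans hK
  have hmu : ∑ i, L.a i = L.mu := rfl
  obtain ⟨S, hS⟩ : ∃ S : ι → ℤ, S = fun i => ∑ j ∈ univ.erase i, L.e i j := ⟨_, rfl⟩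
  have hSi : ∀ i, S i = ∑ j ∈ univ.erase i, L.e i j := fun i => by rw [hS]
  -- the relation (A)
  have hA : ∀ i, S i = 2 * L.t i - 4 * (L.mu - L.deg i + 3 * L.a i) := by
    intro i
    have h := hL.sum_e i
    rw [he, hn', ← hSi i] at h
    linarith
  -- the relation (B)
  have hB : ∀ i j, i ≠ j → L.ν i j = (66 + 6 * L.mu)
      + ((2 * S i - 6 * L.t i - 6 * L.a i) + (2 * S j - 6 * L.t j - 6 * L.a j))
      + (-10) * L.e i j := by
    intro i j hij
    have h := hL.nu_eq i j hij
    rw [he, hn', hK] at h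
    have h1 := hA i
    have h2 := hA j
    linarith
  have hν : ∀ i j, i ≠ j → L.ν i j ≤ 110 := by
    intro i j hij
    have h := (hL.hν i j hij).2
    rw [hn'] at h
    linarith
  -- the relation (C)
  have hSe : ∑ i, ∑ j ∈ univ.erase i, L.e i j = 336 - 24 * L.mu := by
    have h := hL.sum_sum_e
    rw [he, hK] at h
    linarith
  have hSs : ∑ i, S i = 336 - 24 * L.mu := by
    rw [Finset.sum_congr rfl (fun i _ => hSi i)]
    exact hSe
  -- the sum of all `ν`
  have hsumν : ∑ i, ∑ j ∈ univ.erase i, L.ν i j = 17880 - 120 * L.mu := by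
    have h1 : ∑ i, ∑ j ∈ univ.erase i, L.ν i j
        = ∑ i, ∑ j ∈ univ.erase i, ((66 + 6 * L.mu)
          + ((2 * S i - 6 * L.t i - 6 * L.a i) + (2 * S j - 6 * L.t j - 6 * L.a j))
          + (-10) * L.e i j) :=
      Finset.sum_congr rfl (fun i _ => Finset.sum_congr rfl
        (fun j hj => hB i j (Finset.ne_of_mem_erase hj).symm))
    have h2 : ∑ i, (2 * S i - 6 * L.t i - 6 * L.a i)
        = 2 * ∑ i, S i - 6 * ∑ i, L.t i - 6 * ∑ i, L.a i := by
      rw [Finset.sum_sub_distrib, Finset.sum_sub_distrib, ← Finset.mul_sum, ← Finset.mul_sum,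
        ← Finset.mul_sum]
    have h3 : ∑ i, ∑ j ∈ univ.erase i, ((66 + 6 * L.mu)
          + ((2 * S i - 6 * L.t i - 6 * L.a i) + (2 * S j - 6 * L.t j - 6 * L.a j))
          + (-10) * L.e i j)
        = 156 * (66 + 6 * L.mu) + 24 * ∑ i, (2 * S i - 6 * L.t i - 6 * L.a i)
          + (-10) * ∑ i, ∑ j ∈ univ.erase i, L.e i j :=
      tn_dsum hn (fun i => 2 * S i - 6 * L.t i - 6 * L.a i) (fun i j => L.e i j)
        (66 + 6 * L.mu) (-10)
    rw [h1, h3, h2, hSs, hsumt, hmu, hSe]
    ring
  -- vertices with `t = 2`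
  have he1 : ∀ i j, i ≠ j → L.t i = 2 → L.e i j = 1 := by
    intro i j hij hti
    have h1 := hL.e_ge hK i j hij
    have h2 := (hL.e_le hK i j hij).1
    omega
  have hS12 : ∀ i, L.t i = 2 → S i = 12 := by
    intro i hti
    rw [hSi i, Finset.sum_congr rfl (fun j hj => he1 i j (Finset.ne_of_mem_erase hj).symm hti),
      Finset.sum_const, nsmul_eq_mul, tn_card_erase hn i]
    norm_num
  have hex : ∃ i, L.t i = 2 := by
    by_contra hne
    have h3 : ∀ i, 3 ≤ L.t i := by
      intro i
      have h1 := ht2 i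
      have h2 : L.t i ≠ 2 := fun h => hne ⟨i, h⟩
      omega
    have h4 : ∑ _i : ι, (3 : ℤ) ≤ ∑ i, L.t i := Finset.sum_le_sum (fun i _ => h3 i)
    rw [Finset.sum_const, Finset.card_univ, hn, hsumt] at h4
    norm_num at h4
  -- step (1)
  have hmu6 : L.mu ≤ 6 := by
    obtain ⟨i, hti⟩ := hex
    have h1 := hA i
    rw [hS12 i hti, hti] at h1
    have h2 := hL.E1 i
    rw [he, hK, hti, hn'] at h2
    have h3 := (hL.sum_tau_range i).2
    rw [hn'] at h3
    have h5 : 8 * L.mu ≤ 52 := by
      rcases hL.ha i with h4 | h4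
      · rw [h4] at h1 h2
        linarith
      · rw [h4] at h1 h2
        linarith
    omega
  -- step (2)
  have h110 : ∑ i : ι, ∑ _j ∈ univ.erase i, (110 : ℤ) = 17160 := by
    rw [tn_dconst hn 110]
    norm_num
  have hmu6' : 6 ≤ L.mu := by
    have h1 : ∑ i, ∑ j ∈ univ.erase i, L.ν i j ≤ ∑ i : ι, ∑ _j ∈ univ.erase i, (110 : ℤ) :=
      Finset.sum_le_sum (fun i _ => Finset.sum_le_sum
        (fun j hj => hν i j (Finset.ne_of_mem_erase hj).symm))
    rw [hsumν, h110] at h1
    omega
  have hmueq : L.mu = 6 := le_antisymm hmu6 hmu6'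
  -- step (3)
  have hν110 : ∀ i j, i ≠ j → L.ν i j = 110 := by
    have hz : ∑ i, ∑ j ∈ univ.erase i, (110 - L.ν i j) = 0 := by
      have e1 : ∑ i, ∑ j ∈ univ.erase i, (110 - L.ν i j)
          = ∑ i : ι, ∑ _j ∈ univ.erase i, (110 : ℤ) - ∑ i, ∑ j ∈ univ.erase i, L.ν i j := by
        rw [← Finset.sum_sub_distrib]
        exact Finset.sum_congr rfl (fun i _ => Finset.sum_sub_distrib _ _)
      rw [e1, h110, hsumν, hmueq]
      norm_num
    have hnn : ∀ i ∈ (univ : Finset ι), 0 ≤ ∑ j ∈ univ.erase i, (110 - L.ν i j) := by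
      intro i _
      apply Finset.sum_nonneg
      intro j hj
      have h1 := hν i j (Finset.ne_of_mem_erase hj).symm
      linarith
    have hz1 := (Finset.sum_eq_zero_iff_of_nonneg hnn).mp hz
    intro i j hij
    have hz2 := hz1 i (Finset.mem_univ i)
    have hnn2 : ∀ j ∈ univ.erase i, 0 ≤ 110 - L.ν i j := by
      intro j hj
      have h1 := hν i j (Finset.ne_of_mem_erase hj).symm
      linarith
    have hz3 := (Finset.sum_eq_zero_iff_of_nonneg hnn2).mp hz2 j
      (Finset.mem_erase.mpr ⟨hij.symm, Finset.mem_univ j⟩)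
    linarith
  have hpair : ∀ i j, i ≠ j → L.t i = 2 → L.t j = 2 → L.a i + L.a j = 1 := by
    intro i j hij hti htj
    linarith [hB i j hij, hν110 i j hij, hS12 i hti, hS12 j htj, he1 i j hij hti]
  -- three vertices with `t = 2`
  have hcard : 2 < (univ.filter (fun i => L.t i = 2)).card := by
    have h1 : ∑ _i : ι, (1 : ℤ)
        ≤ ∑ i, ((L.t i - 2) + (if L.t i = 2 then (1 : ℤ) else 0)) := by
      apply Finset.sum_le_sum
      intro i _
      have h0 := ht2 i
      split_ifs with h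
      · omega
      · omega
    rw [Finset.sum_add_distrib, Finset.sum_sub_distrib, hsumt, Finset.sum_const,
      Finset.sum_const, Finset.card_univ, hn, Finset.sum_boole] at h1
    norm_num at h1
    omega
  obtain ⟨i, j, k, hi, hj, hk, hij, hik, hjk⟩ := Finset.two_lt_card_iff.mp hcard
  have hti : L.t i = 2 := (Finset.mem_filter.mp hi).2
  have htj : L.t j = 2 := (Finset.mem_filter.mp hj).2
  have htk : L.t k = 2 := (Finset.mem_filter.mp hk).2
  have h1 := hpair i j hij hti htj
  have h2 := hpair i k hik hti htk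
  have h3 := hpair j k hjk htj htk
  omega

end Vale.Agent.Lib.P047.Five
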