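import Vale.Agent.Lib.P047.Five.Basic

/-!
# P047, degree five: the case of 13 variables, top value 1
-/

namespace Vale.Agent.Lib.P047.Five

open Finset

variable {ι : Type*} [Fintype ι] [DecidableEq ι] {L : Raw ι}

omit [DecidableEq ι] in
private theorem tp_n (hn : Fintype.card ι = 13) : L.n = 13 := by
  unfold Raw.n
  rw [hn]
  norm_num

/-- (A): the degree in terms of the row sum of the excesses. -/
private theorem tp_A (hL : Valid L) (hn : Fintype.card ι = 13) (he : L.ε = 1) (i : ι) :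
    4 * L.deg i = 2 * L.t i + 4 * L.mu + 12 * L.a i - ∑ j ∈ univ.erase i, L.e i j := by
  have h := hL.sum_e i
  rw [he, tp_n hn] at h
  linarith

/-- (B): the count `ν` in terms of the excesses. -/
private theorem tp_B (hL : Valid L) (hK : L.K = 36) (hn : Fintype.card ι = 13) (he : L.ε = 1)
    (i j : ι) (hij : i ≠ j) :
    L.ν i j = -6 + 6 * (L.t i + L.t j) - 6 * (L.a i + L.a j) + 10 * L.e i j + 6 * L.mu
      - 2 * ((∑ k ∈ univ.erase i, L.e i k) + ∑ k ∈ univ.erase j, L.e j k) := by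
  have h := hL.nu_eq i j hij
  rw [he, hK, tp_n hn] at h
  have hi := tp_A hL hn he i
  have hj := tp_A hL hn he j
  linarith

/-- (C): the total of the excesses. -/
private theorem tp_C (hL : Valid L) (hK : L.K = 36) (he : L.ε = 1) :
    ∑ i, ∑ j ∈ univ.erase i, L.e i j = 96 + 24 * L.mu := by
  have h := hL.sum_sum_e
  rw [he, hK] at h
  linarith

private theorem tp_e_one (hL : Valid L) (hK : L.K = 36) (i j : ι) (hij : i ≠ j)
    (hi : L.t i = 2) : L.e i j = 1 := by
  have h1 := hL.e_ge hK i j hij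
  have h2 := (hL.e_le hK i j hij).1
  omega

private theorem tp_S_two (hL : Valid L) (hK : L.K = 36) (hn : Fintype.card ι = 13) (i : ι)
    (hi : L.t i = 2) : ∑ j ∈ univ.erase i, L.e i j = 12 := by
  rw [Finset.sum_congr rfl (fun j hj => tp_e_one hL hK i j (Finset.ne_of_mem_erase hj).symm hi),
    Finset.sum_const, Finset.card_erase_of_mem (Finset.mem_univ i), Finset.card_univ, hn]
  norm_num

private theorem tp_double (ψ φ : ι → ℤ) (E : ι → ι → ℤ) :
    ∑ i, ∑ j ∈ univ.erase i, (ψ i + φ j + 10 * E i j) =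
      ((Fintype.card ι : ℤ) - 1) * ∑ i, ψ i + ((Fintype.card ι : ℤ) - 1) * ∑ i, φ i
        + 10 * ∑ i, ∑ j ∈ univ.erase i, E i j := by
  simp only [Finset.sum_add_distrib, ← Finset.mul_sum]
  rw [sum_erase_left, sum_erase_right]

/-- The double sum of the counts `ν`. -/
private theorem tp_sum_nu (hL : Valid L) (hK : L.K = 36) (hn : Fintype.card ι = 13)
    (he : L.ε = 1) : ∑ i, ∑ j ∈ univ.erase i, L.ν i j = 600 - 120 * L.mu := by
  have hC := tp_C hL hK he
  have hmu : ∑ i, L.a i = L.mu := rfl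
  have hKs : ∑ i, L.t i = 36 := by rw [hL.hK, hK]
  have h1 : ∑ i, ∑ j ∈ univ.erase i, L.ν i j = ∑ i, ∑ j ∈ univ.erase i,
      ((6 * L.mu - 6 + (6 * L.t i - 6 * L.a i - 2 * ∑ k ∈ univ.erase i, L.e i k))
        + (6 * L.t j - 6 * L.a j - 2 * ∑ k ∈ univ.erase j, L.e j k) + 10 * L.e i j) := by
    refine Finset.sum_congr rfl (fun i _ => Finset.sum_congr rfl (fun j hj => ?_))
    rw [tp_B hL hK hn he i j (Finset.ne_of_mem_erase hj).symm]
    ring
  have hφ : ∑ j, (6 * L.t j - 6 * L.a j - 2 * ∑ k ∈ univ.erase j, L.e j k)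
      = 24 - 54 * L.mu := by
    rw [Finset.sum_sub_distrib, Finset.sum_sub_distrib, ← Finset.mul_sum, ← Finset.mul_sum,
      ← Finset.mul_sum, hKs, hmu, hC]
    ring
  have hψ : ∑ i, (6 * L.mu - 6 + (6 * L.t i - 6 * L.a i - 2 * ∑ k ∈ univ.erase i, L.e i k))
      = 13 * (6 * L.mu - 6) + (24 - 54 * L.mu) := by
    rw [Finset.sum_add_distrib, hφ, Finset.sum_const, Finset.card_univ, hn]
    norm_num
  have h2 := tp_double
    (fun i => 6 * L.mu - 6 + (6 * L.t i - 6 * L.a i - 2 * ∑ k ∈ univ.erase i, L.e i k))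
    (fun j => 6 * L.t j - 6 * L.a j - 2 * ∑ k ∈ univ.erase j, L.e j k) (fun i j => L.e i j)
  rw [h1, h2, hψ, hφ, hC, hn]
  push_cast
  ring

theorem Valid.thirteen_pos (hL : Valid L) (hK : L.K = 36) (hn : Fintype.card ι = 13)
    (he : L.ε = 1) : False := by
  have hn2 : 2 ≤ Fintype.card ι := by omega
  have ht2 : ∀ i, 2 ≤ L.t i := fun i => hL.t_ge_two hK hn2 i
  have hA := tp_A hL hn he
  have hB := tp_B hL hK hn he
  have hC := tp_C hL hK he
  have hν0 : ∀ i j, i ≠ j → 0 ≤ L.ν i j := fun i j hij => (hL.hν i j hij).1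
  have hmu : ∑ i, L.a i = L.mu := rfl
  have hKs : ∑ i, L.t i = 36 := by rw [hL.hK, hK]
  have ha0 : ∀ i, 0 ≤ L.a i := fun i => by rcases hL.ha i with h | h <;> omega
  have hsumν := tp_sum_nu hL hK hn he
  -- the set of indices with `t i = 2` and its complement
  obtain ⟨Z, Zc, hZ, hZc, hsplit⟩ : ∃ Z Zc : Finset ι, (∀ i, i ∈ Z ↔ L.t i = 2) ∧
      (∀ i, i ∈ Zc ↔ ¬ L.t i = 2) ∧
      ∀ φ : ι → ℤ, ∑ i ∈ Z, φ i + ∑ i ∈ Zc, φ i = ∑ i, φ i :=
    ⟨univ.filter (fun i => L.t i = 2), univ.filter (fun i => ¬ L.t i = 2),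
      fun i => by simp, fun i => by simp,
      fun φ => Finset.sum_filter_add_sum_filter_not univ _ φ⟩
  have hZt : ∑ i ∈ Z, L.t i = 2 * (Z.card : ℤ) := by
    rw [Finset.sum_congr rfl (fun i hi => (hZ i).mp hi), Finset.sum_const, nsmul_eq_mul,
      mul_comm]
  have hZS : ∑ i ∈ Z, ∑ j ∈ univ.erase i, L.e i j = 12 * (Z.card : ℤ) := by
    rw [Finset.sum_congr rfl (fun i hi => tp_S_two hL hK hn i ((hZ i).mp hi)),
      Finset.sum_const, nsmul_eq_mul, mul_comm]
  have hcard : (Z.card : ℤ) + (Zc.card : ℤ) = 13 := by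
    have h := hsplit (fun _ => (1 : ℤ))
    simp only [Finset.sum_const, Finset.card_univ, hn, nsmul_eq_mul, mul_one] at h
    exact_mod_cast h
  have hZct : ∑ i ∈ Zc, L.t i = 36 - 2 * (Z.card : ℤ) := by
    have h := hsplit L.t
    rw [hZt, hKs] at h
    linarith
  have hZct3 : ∀ i ∈ Zc, 3 ≤ L.t i := fun i hi => by
    have h1 := ht2 i
    have h2 := (hZc i).mp hi
    omega
  have hZct_ge : 3 * (Zc.card : ℤ) ≤ ∑ i ∈ Zc, L.t i := by
    have h := Finset.sum_le_sum hZct3
    rw [Finset.sum_const, nsmul_eq_mul] at h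
    linarith
  have hcz3 : 3 ≤ (Z.card : ℤ) := by linarith
  have hcardN : 1 < Z.card := by omega
  obtain ⟨i0, hi0, j0, hj0, hij0⟩ := Finset.one_lt_card.mp hcardN
  have ti0 := (hZ i0).mp hi0
  have tj0 := (hZ j0).mp hj0
  have Si0 := tp_S_two hL hK hn i0 ti0
  have Sj0 := tp_S_two hL hK hn j0 tj0
  have e00 := tp_e_one hL hK i0 j0 hij0 ti0
  have hB00 := hB i0 j0 hij0
  have hν00 := hν0 i0 j0 hij0
  -- (1) and (2): `4 ≤ mu ≤ 5`
  have hmu4 : 4 ≤ L.mu := by
    have h1 := ha0 i0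
    have h2 := ha0 j0
    omega
  have hmu5 : L.mu ≤ 5 := by
    have hnn : 0 ≤ ∑ i, ∑ j ∈ univ.erase i, L.ν i j :=
      Finset.sum_nonneg (fun i _ => Finset.sum_nonneg
        (fun j hj => hν0 i j (Finset.ne_of_mem_erase hj).symm))
    rw [hsumν] at hnn
    omega
  rcases (by omega : L.mu = 4 ∨ L.mu = 5) with h4 | h5
  · -- (4) `mu = 4`
    have haZ : ∀ i ∈ Z, L.a i = 0 := by
      intro i hi
      obtain ⟨j, hj, hji⟩ := Finset.exists_mem_ne hcardN i
      have ti := (hZ i).mp hi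
      have tj := (hZ j).mp hj
      have hBij := hB i j hji.symm
      have h1 := tp_e_one hL hK i j hji.symm ti
      have h2 := tp_S_two hL hK hn i ti
      have h3 := tp_S_two hL hK hn j tj
      have h5 := hν0 i j hji.symm
      have h6 := ha0 j
      rcases hL.ha i with h | h
      · exact h
      · omega
    have hstar : ∀ j ∈ Zc, ∑ k ∈ univ.erase j, L.e j k ≤ 8 + 3 * L.t j - 3 * L.a j := by
      intro j hj
      have hne : i0 ≠ j := by
        intro h
        rw [← h] at hj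
        exact (hZc i0).mp hj ti0
      have hBj := hB i0 j hne
      have h1 := tp_e_one hL hK i0 j hne ti0
      have h2 := haZ i0 hi0
      have h3 := hν0 i0 j hne
      linarith
    have hZa : ∑ i ∈ Z, L.a i = 0 := Finset.sum_eq_zero haZ
    have hZca : ∑ i ∈ Zc, L.a i = 4 := by
      have h := hsplit L.a
      rw [hZa, hmu, h4] at h
      linarith
    have hZcS : ∑ i ∈ Zc, ∑ j ∈ univ.erase i, L.e i j = 192 - 12 * (Z.card : ℤ) := by
      have h := hsplit (fun i => ∑ j ∈ univ.erase i, L.e i j)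
      rw [hZS, hC, h4] at h
      linarith
    have hsumstar : ∑ j ∈ Zc, ∑ k ∈ univ.erase j, L.e j k
        ≤ ∑ j ∈ Zc, (8 + 3 * L.t j - 3 * L.a j) := Finset.sum_le_sum hstar
    have hrhs : ∑ j ∈ Zc, (8 + 3 * L.t j - 3 * L.a j)
        = 8 * (Zc.card : ℤ) + 3 * (36 - 2 * (Z.card : ℤ)) - 3 * 4 := by
      rw [Finset.sum_sub_distrib, Finset.sum_add_distrib, ← Finset.mul_sum, ← Finset.mul_sum,
        hZct, hZca, Finset.sum_const, nsmul_eq_mul]
      ring
    have hcz4 : (Z.card : ℤ) ≤ 4 := by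
      rw [hZcS, hrhs] at hsumstar
      linarith
    rcases (by omega : (Z.card : ℤ) = 3 ∨ (Z.card : ℤ) = 4) with hc3 | hc4
    · -- three indices with `t = 2`
      have hb : (Zc.card : ℤ) = 10 := by linarith
      have hsum0 : ∑ j ∈ Zc, (L.t j - 3) = 0 := by
        rw [Finset.sum_sub_distrib, hZct, Finset.sum_const, nsmul_eq_mul, hb, hc3]
        norm_num
      have ht3 : ∀ j ∈ Zc, L.t j = 3 := by
        intro j hj
        have h := (Finset.sum_eq_zero_iff_of_nonneg (fun k hk => by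
          have h' := hZct3 k hk
          linarith)).mp hsum0 j hj
        linarith
      have hS14 : ∀ j ∈ Zc, ∑ k ∈ univ.erase j, L.e j k ≤ 14 := by
        intro j hj
        have h1 := hstar j hj
        have h2 := hA j
        have h3 := ht3 j hj
        rcases hL.ha j with h | h <;> omega
      have h := Finset.sum_le_sum hS14
      rw [hZcS, Finset.sum_const, nsmul_eq_mul, hb, hc3] at h
      norm_num at h
    · -- four indices with `t = 2`
      have hb : (Zc.card : ℤ) = 9 := by linarith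
      have hsum0 : ∑ j ∈ Zc,
          (8 + 3 * L.t j - 3 * L.a j - ∑ k ∈ univ.erase j, L.e j k) = 0 := by
        rw [Finset.sum_sub_distrib, hrhs, hZcS, hb, hc4]
        norm_num
      have heq : ∀ j ∈ Zc, ∑ k ∈ univ.erase j, L.e j k = 8 + 3 * L.t j - 3 * L.a j := by
        intro j hj
        have h := (Finset.sum_eq_zero_iff_of_nonneg (fun k hk => by
          have h' := hstar k hk
          linarith)).mp hsum0 j hj
        linarith
      have hage : ∀ j ∈ Zc, 4 - L.t j ≤ L.a j := by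
        intro j hj
        have h1 := heq j hj
        have h2 := hA j
        have h3 := hZct3 j hj
        have h0 := ha0 j
        rcases hL.ha j with h | h <;> omega
      have h := Finset.sum_le_sum hage
      rw [hZca, Finset.sum_sub_distrib, hZct, Finset.sum_const, nsmul_eq_mul, hb, hc4] at h
      norm_num at h
  · -- (3) `mu = 5`
    have hz : ∑ i, ∑ j ∈ univ.erase i, L.ν i j = 0 := by
      rw [hsumν, h5]
      norm_num
    have h1 := (Finset.sum_eq_zero_iff_of_nonneg (fun i _ => Finset.sum_nonneg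
      (fun j hj => hν0 i j (Finset.ne_of_mem_erase hj).symm))).mp hz i0 (Finset.mem_univ i0)
    have h2 := (Finset.sum_eq_zero_iff_of_nonneg
      (fun j hj => hν0 i0 j (Finset.ne_of_mem_erase hj).symm)).mp h1 j0
      (Finset.mem_erase.mpr ⟨hij0.symm, Finset.mem_univ j0⟩)
    omega

end Vale.Agent.Lib.P047.Five
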