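import Vale.Agent.Lib.P047.Five.Basic

/-!
# P047, degree five: the case of 12 variables, top value -1
-/

namespace Vale.Agent.Lib.P047.Five

open Finset

variable {ι : Type*} [Fintype ι] [DecidableEq ι] {L : Raw ι}

theorem Valid.twelve_neg (hL : Valid L) (hK : L.K = 36) (hn : Fintype.card ι = 12)
    (he : L.ε = -1) : False := by
  have hn' : L.n = 12 := by simp [Raw.n, hn]
  have hcard2 : 2 ≤ Fintype.card ι := by omega
  -- (0) all t i = 3
  have ht3 : ∀ i, 3 ≤ L.t i := by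
    intro i
    have h2 := hL.t_ge_two hK hcard2 i
    by_contra hlt
    have h2' : L.t i = 2 := by omega
    obtain ⟨r, hr⟩ := hL.card_mod_of_t_eq_two hK i h2'
    rw [hn'] at hr
    omega
  have hsum0 : ∑ i, (L.t i - 3) = 0 := by
    rw [Finset.sum_sub_distrib, hL.hK, hK, Finset.sum_const, Finset.card_univ, hn]
    norm_num
  have ht : ∀ i, L.t i = 3 := by
    intro i
    have h0 := (Finset.sum_eq_zero_iff_of_nonneg
      (fun i _ => sub_nonneg.mpr (ht3 i))).mp hsum0 i (Finset.mem_univ i)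
    omega
  -- (1), (2)
  have hone : ∀ i : ι, ∑ _j ∈ univ.erase i, (1 : ℤ) = 11 := by
    intro i
    rw [Finset.sum_const, Finset.card_erase_of_mem (Finset.mem_univ i), Finset.card_univ, hn]
    norm_num
  have hr : ∀ i, L.mu + 2 * L.a i + 2 ≤ L.deg i := by
    intro i
    have hD1 := hL.sum_e i
    rw [ht i, he, hn'] at hD1
    have hge : ∑ _j ∈ univ.erase i, (1 : ℤ) ≤ ∑ j ∈ univ.erase i, L.e i j :=
      Finset.sum_le_sum (fun j hj => hL.e_ge hK i j (Finset.ne_of_mem_erase hj).symm)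
    rw [hone i] at hge
    have h5 : 5 ≤ 4 * (L.deg i - L.mu - 2 * L.a i) := by linarith
    omega
  -- (3)
  have h3 : ∀ i, 6 * L.mu ≤ 34 + 6 * L.a i := by
    intro i
    have hE1 := hL.E1 i
    rw [he, hK, ht i, hn'] at hE1
    have hT := (hL.sum_tau_range i).2
    rw [hn'] at hT
    have h2 := hr i
    linarith
  -- (4)
  have hP : ∑ i, L.deg i = 66 + 8 * L.mu := by
    have hE0 := hL.E0
    rw [he, hK, hn'] at hE0
    linarith
  have hS1 : ∑ i : ι, ∑ _j ∈ univ.erase i, (1 : ℤ) = 132 := by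
    rw [Finset.sum_congr rfl (fun i _ => hone i), Finset.sum_const, Finset.card_univ, hn]
    norm_num
  have hSai : ∑ i, ∑ _j ∈ univ.erase i, L.a i = 11 * L.mu := by
    rw [sum_erase_left, hn]
    norm_num [Raw.mu]
  have hSaj : ∑ i, ∑ j ∈ univ.erase i, L.a j = 11 * L.mu := by
    rw [sum_erase_right, hn]
    norm_num [Raw.mu]
  have hSdi : ∑ i, ∑ _j ∈ univ.erase i, L.deg i = 11 * (66 + 8 * L.mu) := by
    rw [sum_erase_left, hn, hP]
    norm_num
  have hSdj : ∑ i, ∑ j ∈ univ.erase i, L.deg j = 11 * (66 + 8 * L.mu) := by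
    rw [sum_erase_right, hn, hP]
    norm_num
  have hSh : ∑ i, ∑ j ∈ univ.erase i, L.h i j = 66 + 8 * L.mu := hP
  have hSe : ∑ i, ∑ j ∈ univ.erase i, L.e i j = 336 - 24 * L.mu := by
    rw [hL.sum_sum_e, he, hK]
    ring
  have hνeq : ∀ i, ∀ j ∈ univ.erase i, L.ν i j = 54 * 1 - 4 * L.h i j - 16 * L.a i
      - 16 * L.a j - 8 * L.e i j + 6 * L.deg i + 6 * L.deg j - 8 * L.mu * 1 := by
    intro i j hj
    have h := hL.nu_eq i j (Finset.ne_of_mem_erase hj).symm
    rw [he, hK, ht i, ht j, hn'] at h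
    rw [h]
    ring
  have hνle : ∀ i, ∀ j ∈ univ.erase i, L.ν i j ≤ 90 * 1 := by
    intro i j hj
    have h := (hL.hν i j (Finset.ne_of_mem_erase hj).symm).2
    rw [hn'] at h
    linarith
  have hsumν : ∑ i, ∑ j ∈ univ.erase i, L.ν i j = 12888 - 192 * L.mu := by
    rw [Finset.sum_congr rfl (fun i _ => Finset.sum_congr rfl (hνeq i))]
    simp only [Finset.sum_sub_distrib, Finset.sum_add_distrib, ← Finset.mul_sum]
    rw [hS1, hSh, hSai, hSaj, hSe, hSdi, hSdj]
    ring
  have hsumle : ∑ i, ∑ j ∈ univ.erase i, L.ν i j ≤ 90 * 132 := by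
    calc ∑ i, ∑ j ∈ univ.erase i, L.ν i j
        ≤ ∑ i : ι, ∑ _j ∈ univ.erase i, (90 * 1 : ℤ) :=
          Finset.sum_le_sum (fun i _ => Finset.sum_le_sum (hνle i))
      _ = 90 * 132 := by
          rw [← hS1]
          simp only [← Finset.mul_sum]
  have hmu6 : 6 ≤ L.mu := by
    rw [hsumν] at hsumle
    omega
  -- (5)
  obtain ⟨i0⟩ : Nonempty ι := Fintype.card_pos_iff.mp (by omega)
  have hmu_le : L.mu ≤ 6 := by
    have h := h3 i0
    rcases hL.ha i0 with h0 | h0 <;> omega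
  have ha1 : ∀ i, L.a i = 1 := by
    intro i
    have h := h3 i
    rcases hL.ha i with h0 | h0
    · omega
    · exact h0
  have hmu12 : L.mu = 12 := by
    unfold Raw.mu
    rw [Finset.sum_congr rfl (fun i _ => ha1 i), Finset.sum_const, Finset.card_univ, hn]
    norm_num
  omega

end Vale.Agent.Lib.P047.Five
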