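import Vale.Agent.Lib.P047.Five.Basic

/-!
# P047, degree five: the case of 12 variables, top value 1
-/

namespace Vale.Agent.Lib.P047.Five

open Finset

variable {ι : Type*} [Fintype ι] [DecidableEq ι] {L : Raw ι}

theorem Valid.twelve_pos (hL : Valid L) (hK : L.K = 36) (hn : Fintype.card ι = 12)
    (he : L.ε = 1) : False := by
  have hn' : L.n = 12 := by simp [Raw.n, hn]
  have hcard : ((univ : Finset ι).card : ℤ) = 12 := by
    rw [Finset.card_univ, hn]
    norm_num
  have hcardE : ∀ i : ι, ((univ.erase i).card : ℤ) = 11 := by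
    intro i
    rw [Finset.card_erase_of_mem (mem_univ i), Finset.card_univ, hn]
    norm_num
  have hmu : ∑ i, L.a i = L.mu := rfl
  -- all `t i` equal `3`
  have ht3 : ∀ i, L.t i = 3 := by
    have hge : ∀ i, 3 ≤ L.t i := by
      intro i
      have h2 := hL.t_ge_two hK (by omega) i
      rcases eq_or_lt_of_le h2 with h | h
      · obtain ⟨r, hr⟩ := hL.card_mod_of_t_eq_two hK i h.symm
        rw [hn'] at hr
        omega
      · omega
    have hsum : ∑ i, (L.t i - 3) = 0 := by
      rw [Finset.sum_sub_distrib, hL.hK, hK, Finset.sum_const, nsmul_eq_mul, hcard]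
      norm_num
    have h0 := (Finset.sum_eq_zero_iff_of_nonneg (fun i _ => by linarith [hge i])).mp hsum
    intro i
    have h1 := h0 i (Finset.mem_univ i)
    linarith
  -- (D1) with `r i = mu - deg i + 2 * a i`
  have hD1 : ∀ i, ∑ j ∈ univ.erase i, L.e i j = 6 + 4 * (L.mu - L.deg i + 2 * L.a i) := by
    intro i
    have h := hL.sum_e i
    rw [he, hn', ht3 i] at h
    exact h.trans (by ring)
  have hr2 : ∀ i, 2 ≤ L.mu - L.deg i + 2 * L.a i := by
    intro i
    have h1 : ∑ _j ∈ univ.erase i, (1 : ℤ) ≤ ∑ j ∈ univ.erase i, L.e i j :=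
      Finset.sum_le_sum (fun j hj => hL.e_ge hK i j (Finset.ne_of_mem_erase hj).symm)
    rw [Finset.sum_const, nsmul_eq_mul, hcardE i, hD1 i] at h1
    omega
  -- (E0): the number of ordered minus pairs
  have hP : ∑ i, L.deg i = 8 * L.mu - 6 := by
    have h := hL.E0
    rw [he, hK, hn'] at h
    linarith
  -- `mu ≥ 3`
  have hmu3 : 3 ≤ L.mu := by
    have h1 : ∑ _i : ι, (2 : ℤ) ≤ ∑ i, (L.mu - L.deg i + 2 * L.a i) :=
      Finset.sum_le_sum (fun i _ => hr2 i)
    simp only [Finset.sum_add_distrib, Finset.sum_sub_distrib, Finset.sum_const, nsmul_eq_mul,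
      ← Finset.mul_sum] at h1
    rw [hcard, hP, hmu] at h1
    linarith
  -- the counts `nu i j`
  have hν : ∀ i j, i ≠ j → L.ν i j = 6 - 8 * L.mu - 16 * L.a i + 6 * L.deg i
      + (-4 * L.h i j - 16 * L.a j + 8 * L.e i j + 6 * L.deg j) := by
    intro i j hij
    have h := hL.nu_eq i j hij
    rw [he, hK, hn', ht3 i, ht3 j] at h
    exact h.trans (by ring)
  -- summing `nu i j ≥ 0` over `j ≠ i`
  have hS : ∀ i, 0 ≤ 78 - 48 * L.a i - 24 * (L.mu - L.deg i + 2 * L.a i) := by
    intro i
    have h0 : 0 ≤ ∑ j ∈ univ.erase i, L.ν i j :=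
      Finset.sum_nonneg (fun j hj => (hL.hν i j (Finset.ne_of_mem_erase hj).symm).1)
    have h1 : ∑ j ∈ univ.erase i, L.ν i j = ∑ j ∈ univ.erase i,
        (6 - 8 * L.mu - 16 * L.a i + 6 * L.deg i
          + (-4 * L.h i j - 16 * L.a j + 8 * L.e i j + 6 * L.deg j)) :=
      Finset.sum_congr rfl (fun j hj => hν i j (Finset.ne_of_mem_erase hj).symm)
    have h2 : ∑ j ∈ univ.erase i, L.h i j = L.deg i := rfl
    have h3 : ∑ j ∈ univ.erase i, L.a j = L.mu - L.a i := by
      rw [sum_erase_eq L.a i, hmu]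
    have h4 : ∑ j ∈ univ.erase i, L.deg j = 8 * L.mu - 6 - L.deg i := by
      rw [sum_erase_eq L.deg i, hP]
    rw [h1] at h0
    simp only [Finset.sum_add_distrib, Finset.sum_sub_distrib, Finset.sum_const, nsmul_eq_mul,
      ← Finset.mul_sum] at h0
    rw [hcardE i, h2, h3, hD1 i, h4] at h0
    linarith
  -- hence all `a i` vanish, so `mu = 0`
  have ha0 : ∀ i, L.a i = 0 := by
    intro i
    rcases hL.ha i with h | h
    · exact h
    · have h1 := hS i
      have h2 := hr2 i
      rw [h] at h1 h2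
      linarith
  have hmu0 : L.mu = 0 := by
    rw [← hmu]
    exact Finset.sum_eq_zero (fun i _ => ha0 i)
  linarith

end Vale.Agent.Lib.P047.Five
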