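import Vale.Agent.Lib.P047.Five.Small
import Vale.Agent.Lib.P047.Five.Large
import Vale.Agent.Lib.P047.Five.TwelvePos
import Vale.Agent.Lib.P047.Five.TwelveNeg
import Vale.Agent.Lib.P047.Five.ThirteenPos
import Vale.Agent.Lib.P047.Five.ThirteenNeg

/-!
# P047, degree five: valid local data with `K ≥ 35` do not exist
-/

namespace Vale.Agent.Lib.P047.Five

open Finset

variable {ι : Type*} [Fintype ι] [DecidableEq ι] {L : Raw ι}

theorem Valid.false (hL : Valid L) (hK : 35 ≤ L.K) : False := by
  have h36 : 36 ≤ L.K := hL.K_ge hK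
  by_cases hn : Fintype.card ι ≤ 11
  · exact hL.small h36 hn
  · have hn12 : 12 ≤ Fintype.card ι := by omega
    have hK36 : L.K = 36 := hL.K_eq h36 hn12
    by_cases h14 : 14 ≤ Fintype.card ι
    · exact hL.large hK36 h14
    · rcases hL.hε with he | he
      · by_cases h12 : Fintype.card ι = 12
        · exact hL.twelve_pos hK36 h12 he
        · exact hL.thirteen_pos hK36 (by omega) he
      · by_cases h12 : Fintype.card ι = 12
        · exact hL.twelve_neg hK36 h12 he
        · exact hL.thirteen_neg hK36 (by omega) he

end Vale.Agent.Lib.P047.Five
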