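import Vale.Agent.Lib.P047.Five.BookE0
import Vale.Agent.Lib.P047.Five.BookE1
import Vale.Agent.Lib.P047.Five.BookE2
import Vale.Agent.Lib.P047.Five.BookI
import Vale.Agent.Lib.P047.Five.Core

/-!
# P047, degree five: a good set function with `∑ t ≥ 35` does not exist
-/

namespace Vale.Agent.Lib.P047.Five

open Finset

variable {ι : Type*} [Fintype ι] [DecidableEq ι] {G : Finset ι → ℤ} {t : ι → ℤ}

theorem Good.valid (hG : Good G t) : Valid (toRaw G t) where
  hε := hG.toRaw_eps
  ha := toRaw_a G t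
  hh := toRaw_h G t
  hsymm := toRaw_h_symm G t
  τsymm := toRaw_tau_symm G t
  hτ := toRaw_tau_range G t
  hν := toRaw_nu_range G t
  hK := rfl
  E0 := hG.E0
  E1 := hG.E1
  E2 := hG.E2
  I1 := hG.I1
  I2 := hG.I2

/-- The integer core: no good set function has `∑ t ≥ 35`. -/
theorem Good.false (hG : Good G t) (hK : 35 ≤ ∑ l, t l) : False :=
  hG.valid.false hK

end Vale.Agent.Lib.P047.Five
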