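import Vale.Agent.Lib.P047.Five.Sums

/-!
# P047, degree five: first consequences of the merging inequalities
-/

namespace Vale.Agent.Lib.P047.Five

open Finset

variable {ι : Type*} [Fintype ι] [DecidableEq ι] {L : Raw ι}

theorem Valid.K_ge (hL : Valid L) (hK : 35 ≤ L.K) : 36 ≤ L.K := by
  obtain ⟨m, hm⟩ := hL.K_even
  omega

theorem Valid.t_ge (hL : Valid L) (hn : 2 ≤ Fintype.card ι) (i : ι) : L.K - 34 ≤ L.t i := by
  obtain ⟨j, hj⟩ := Fintype.exists_ne_of_one_lt_card (by omega) i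
  have h1 := hL.I1 j i hj
  have h2 := hL.I2 j i hj
  linarith

theorem Valid.K_eq (hL : Valid L) (hK : 36 ≤ L.K) (hn : 12 ≤ Fintype.card ι) : L.K = 36 := by
  have h : ∑ _i : ι, (L.K - 34) ≤ ∑ i, L.t i :=
    Finset.sum_le_sum (fun i _ => hL.t_ge (by omega) i)
  rw [Finset.sum_const, Finset.card_univ, hL.hK, nsmul_eq_mul] at h
  have hc : (12 : ℤ) ≤ (Fintype.card ι : ℤ) := by exact_mod_cast hn
  have h2 : (12 : ℤ) * (L.K - 34) ≤ (Fintype.card ι : ℤ) * (L.K - 34) :=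
    mul_le_mul_of_nonneg_right hc (by linarith)
  obtain ⟨m, hm⟩ := hL.K_even
  have h3 : 12 * (L.K - 34) ≤ L.K := le_trans h2 h
  omega

theorem Valid.t_ge_two (hL : Valid L) (hK : L.K = 36) (hn : 2 ≤ Fintype.card ι) (i : ι) :
    2 ≤ L.t i := by
  have h := hL.t_ge hn i
  omega

theorem Valid.e_ge (hL : Valid L) (hK : L.K = 36) (i j : ι) (hij : i ≠ j) : 1 ≤ L.e i j := by
  have h := hL.I1 i j hij
  omega

theorem Valid.e_le (hL : Valid L) (hK : L.K = 36) (i j : ι) (hij : i ≠ j) :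
    L.e i j ≤ L.t i - 1 ∧ L.e i j ≤ L.t j - 1 := by
  have h1 := hL.I2 i j hij
  have h2 := hL.I2 j i hij.symm
  have h3 := hL.e_symm i j
  constructor <;> omega

/-- The congruence `∑_{j ≠ i} e i j ≡ 2 t i (mod 4)`. -/
theorem Valid.sum_e_mod (hL : Valid L) (i : ι) :
    ∃ r : ℤ, ∑ j ∈ univ.erase i, L.e i j = 2 * L.t i + 4 * r := by
  refine ⟨L.ε * (L.mu - L.deg i + (L.n - 10) * L.a i), ?_⟩
  rw [hL.sum_e i]
  ring

/-- A vertex with `t i = 2` forces `n ≡ 1 (mod 4)`. -/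
theorem Valid.card_mod_of_t_eq_two (hL : Valid L) (hK : L.K = 36) (i : ι) (hi : L.t i = 2) :
    ∃ r : ℤ, L.n - 1 = 4 * r := by
  have h1 : ∀ j ∈ univ.erase i, L.e i j = 1 := by
    intro j hj
    have hji : i ≠ j := (Finset.ne_of_mem_erase hj).symm
    have ha := hL.e_ge hK i j hji
    have hb := (hL.e_le hK i j hji).1
    omega
  have h2 : ∑ j ∈ univ.erase i, L.e i j = ((univ.erase i).card : ℤ) := by
    rw [Finset.sum_congr rfl h1]
    simp
  have hpos : 1 ≤ Fintype.card ι := Fintype.card_pos_iff.mpr ⟨i⟩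
  have h3 : ((univ.erase i).card : ℤ) = L.n - 1 := by
    rw [Finset.card_erase_of_mem (Finset.mem_univ i), Finset.card_univ]
    unfold Raw.n
    push_cast [Nat.cast_sub hpos]
    ring
  refine ⟨1 + L.ε * (L.mu - L.deg i + (L.n - 10) * L.a i), ?_⟩
  have h4 := hL.sum_e i
  rw [h2, h3, hi] at h4
  linarith

end Vale.Agent.Lib.P047.Five
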