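import Vale.Agent.Lib.P047.Five.GDefs

/-!
# P047, degree five: expansions of the neighbour sums at small sets
-/

namespace Vale.Agent.Lib.P047.Five

open Finset
open scoped symmDiff

variable {ι : Type*} [Fintype ι] [DecidableEq ι]

omit [Fintype ι] in
private theorem symmDiff_single_mem (R : Finset ι) (k : ι) (hk : k ∈ R) :
    R ∆ {k} = R.erase k := by
  ext x
  simp only [Finset.mem_symmDiff, Finset.mem_singleton, Finset.mem_erase]
  constructor
  · rintro (⟨hx, hne⟩ | ⟨rfl, hx⟩)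
    · exact ⟨hne, hx⟩
    · exact absurd hk hx
  · rintro ⟨hne, hx⟩
    exact Or.inl ⟨hx, hne⟩

omit [Fintype ι] in
private theorem symmDiff_single_not_mem (R : Finset ι) (k : ι) (hk : k ∉ R) :
    R ∆ {k} = insert k R := by
  ext x
  simp only [Finset.mem_symmDiff, Finset.mem_singleton, Finset.mem_insert]
  constructor
  · rintro (⟨hx, hne⟩ | ⟨rfl, hx⟩)
    · exact Or.inr hx
    · exact Or.inl rfl
  · rintro (rfl | hx)
    · exact Or.inr ⟨rfl, hk⟩
    · exact Or.inl ⟨hx, fun h => hk (h ▸ hx)⟩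

theorem nb_split (G : Finset ι → ℤ) (R : Finset ι) :
    nb G R = ∑ k ∈ R, G (R.erase k) + ∑ k ∈ Rᶜ, G (insert k R) := by
  unfold nb
  rw [← Finset.sum_add_sum_compl R (fun k => G (R ∆ {k}))]
  congr 1
  · exact Finset.sum_congr rfl (fun k hk => by rw [symmDiff_single_mem R k hk])
  · exact Finset.sum_congr rfl
      (fun k hk => by rw [symmDiff_single_not_mem R k (Finset.mem_compl.mp hk)])

theorem nb_empty (G : Finset ι → ℤ) : nb G ∅ = ∑ k, G {k} := by
  unfold nb
  refine Finset.sum_congr rfl (fun k _ => ?_)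
  rw [symmDiff_single_not_mem ∅ k (Finset.notMem_empty k), insert_empty_eq]

theorem nb_single (G : Finset ι → ℤ) (i : ι) :
    nb G {i} = G ∅ + ∑ k ∈ univ.erase i, G {i, k} := by
  have hc : ({i} : Finset ι)ᶜ = univ.erase i := by
    ext x
    simp
  rw [nb_split, Finset.sum_singleton, Finset.erase_singleton, hc]
  congr 1
  exact Finset.sum_congr rfl (fun k _ => by rw [Finset.pair_comm])

theorem nb_pair (G : Finset ι → ℤ) (i j : ι) (hij : i ≠ j) :
    nb G {i, j} = G {i} + G {j} + ∑ k ∈ ({i, j} : Finset ι)ᶜ, G (insert k {i, j}) := by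
  have h1 : ({i, j} : Finset ι).erase i = {j} :=
    Finset.erase_insert (Finset.notMem_singleton.mpr hij)
  have h2 : ({i, j} : Finset ι).erase j = {i} := by
    rw [Finset.pair_comm]
    exact Finset.erase_insert (Finset.notMem_singleton.mpr (Ne.symm hij))
  rw [nb_split, Finset.sum_pair hij, h1, h2, add_comm (G {j}) (G {i})]

theorem nb_triple (G : Finset ι → ℤ) (i j k : ι) (hij : i ≠ j)
    (hk : k ∈ ({i, j} : Finset ι)ᶜ) :
    nb G (insert k {i, j}) = G {i, j} + G {i, k} + G {j, k}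
      + ∑ l ∈ (insert k ({i, j} : Finset ι))ᶜ, G (insert l (insert k {i, j})) := by
  have hk' : k ∉ ({i, j} : Finset ι) := Finset.mem_compl.mp hk
  have hki : k ≠ i := fun h => hk' (by simp [h])
  have hkj : k ≠ j := fun h => hk' (by simp [h])
  have h1 : (insert k ({i, j} : Finset ι)).erase i = {j, k} := by
    ext x
    simp only [Finset.mem_erase, Finset.mem_insert, Finset.mem_singleton]
    constructor
    · rintro ⟨hne, h | h | h⟩
      · exact Or.inr h
      · exact absurd h hne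
      · exact Or.inl h
    · rintro (h | h)
      · exact ⟨fun h' => hij (h'.symm.trans h), Or.inr (Or.inr h)⟩
      · exact ⟨fun h' => hki (h.symm.trans h'), Or.inl h⟩
  have h2 : (insert k ({i, j} : Finset ι)).erase j = {i, k} := by
    ext x
    simp only [Finset.mem_erase, Finset.mem_insert, Finset.mem_singleton]
    constructor
    · rintro ⟨hne, h | h | h⟩
      · exact Or.inr h
      · exact Or.inl h
      · exact absurd h hne
    · rintro (h | h)
      · exact ⟨fun h' => hij (h.symm.trans h'), Or.inr (Or.inl h)⟩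
      · exact ⟨fun h' => hkj (h.symm.trans h'), Or.inl h⟩
  rw [nb_split, Finset.sum_insert hk', Finset.sum_pair hij, Finset.erase_insert hk', h1, h2]
  ring

theorem nb_nb_empty (G : Finset ι → ℤ) :
    nb (nb G) ∅ = ∑ k, (G ∅ + ∑ l ∈ univ.erase k, G {k, l}) := by
  rw [nb_empty]
  exact Finset.sum_congr rfl (fun k _ => nb_single G k)

theorem nb_nb_single (G : Finset ι → ℤ) (i : ι) :
    nb (nb G) {i} = ∑ l, G {l} + ∑ k ∈ univ.erase i,
      (G {i} + G {k} + ∑ l ∈ ({i, k} : Finset ι)ᶜ, G (insert l {i, k})) := by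
  rw [nb_single, nb_empty]
  congr 1
  exact Finset.sum_congr rfl
    (fun k hk => nb_pair G i k (Finset.ne_of_mem_erase hk).symm)

theorem nb_nb_pair (G : Finset ι → ℤ) (i j : ι) (hij : i ≠ j) :
    nb (nb G) {i, j} = (G ∅ + ∑ l ∈ univ.erase i, G {i, l}) + (G ∅ + ∑ l ∈ univ.erase j, G {j, l})
      + ∑ k ∈ ({i, j} : Finset ι)ᶜ, (G {i, j} + G {i, k} + G {j, k}
        + ∑ l ∈ (insert k ({i, j} : Finset ι))ᶜ, G (insert l (insert k {i, j}))) := by
  rw [nb_pair (nb G) i j hij, nb_single, nb_single]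
  congr 1
  exact Finset.sum_congr rfl (fun k hk => nb_triple G i j k hij hk)

theorem ind_range (G : Finset ι → ℤ) (R : Finset ι) : ind G R = 0 ∨ ind G R = 1 := by
  unfold ind
  split_ifs
  · exact Or.inl rfl
  · exact Or.inr rfl

private theorem ind_nonneg (G : Finset ι → ℤ) (R : Finset ι) : 0 ≤ ind G R := by
  rcases ind_range G R with h | h <;> omega

private theorem ind_le_one (G : Finset ι → ℤ) (R : Finset ι) : ind G R ≤ 1 := by
  rcases ind_range G R with h | h <;> omega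

variable {G : Finset ι → ℤ} {t : ι → ℤ}

theorem Good.eps_sq (hG : Good G t) : G ∅ * G ∅ = 1 := by
  rcases hG.pm ∅ with h | h <;> (rw [h]; norm_num)

theorem Good.G_eq (hG : Good G t) (R : Finset ι) : G R = G ∅ * (1 - 2 * ind G R) := by
  unfold ind
  rcases hG.pm R with h | h <;> rcases hG.pm ∅ with h0 | h0 <;> simp [h, h0]

theorem card_erase_int (i : ι) :
    ((univ.erase i : Finset ι).card : ℤ) = (Fintype.card ι : ℤ) - 1 := by
  rw [Finset.card_erase_of_mem (Finset.mem_univ i), Finset.card_univ]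
  have h : 1 ≤ Fintype.card ι := Fintype.card_pos_iff.mpr ⟨i⟩
  omega

theorem card_compl_pair_int (i j : ι) (hij : i ≠ j) :
    ((({i, j} : Finset ι)ᶜ).card : ℤ) = (Fintype.card ι : ℤ) - 2 := by
  have h : ({i, j} : Finset ι).card ≤ Fintype.card ι := Finset.card_le_univ _
  rw [Finset.card_pair hij] at h
  rw [Finset.card_compl, Finset.card_pair hij]
  omega

theorem card_compl_triple_int (i j k : ι) (hij : i ≠ j) (hk : k ∈ ({i, j} : Finset ι)ᶜ) :
    (((insert k ({i, j} : Finset ι))ᶜ).card : ℤ) = (Fintype.card ι : ℤ) - 3 := by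
  have hk' : k ∉ ({i, j} : Finset ι) := Finset.mem_compl.mp hk
  have h : (insert k ({i, j} : Finset ι)).card ≤ Fintype.card ι := Finset.card_le_univ _
  rw [Finset.card_insert_of_notMem hk', Finset.card_pair hij] at h
  rw [Finset.card_compl, Finset.card_insert_of_notMem hk', Finset.card_pair hij]
  omega

theorem Good.toRaw_eps (hG : Good G t) : (toRaw G t).ε = 1 ∨ (toRaw G t).ε = -1 :=
  hG.pm ∅

theorem toRaw_a (G : Finset ι → ℤ) (t : ι → ℤ) (i : ι) :
    (toRaw G t).a i = 0 ∨ (toRaw G t).a i = 1 :=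
  ind_range G {i}

theorem toRaw_h (G : Finset ι → ℤ) (t : ι → ℤ) (i j : ι) :
    (toRaw G t).h i j = 0 ∨ (toRaw G t).h i j = 1 :=
  ind_range G {i, j}

theorem toRaw_h_symm (G : Finset ι → ℤ) (t : ι → ℤ) (i j : ι) :
    (toRaw G t).h i j = (toRaw G t).h j i := by
  show ind G {i, j} = ind G {j, i}
  rw [Finset.pair_comm]

theorem toRaw_tau_symm (G : Finset ι → ℤ) (t : ι → ℤ) (i j : ι) :
    (toRaw G t).τ i j = (toRaw G t).τ j i := by
  show ∑ k ∈ ({i, j} : Finset ι)ᶜ, ind G (insert k {i, j})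
    = ∑ k ∈ ({j, i} : Finset ι)ᶜ, ind G (insert k {j, i})
  rw [Finset.pair_comm]

theorem toRaw_tau_range (G : Finset ι → ℤ) (t : ι → ℤ) (i j : ι) (hij : i ≠ j) :
    0 ≤ (toRaw G t).τ i j ∧ (toRaw G t).τ i j ≤ (toRaw G t).n - 2 := by
  show 0 ≤ ∑ k ∈ ({i, j} : Finset ι)ᶜ, ind G (insert k {i, j}) ∧
    ∑ k ∈ ({i, j} : Finset ι)ᶜ, ind G (insert k {i, j}) ≤ (Fintype.card ι : ℤ) - 2
  constructor
  · exact Finset.sum_nonneg (fun k _ => ind_nonneg G _)
  · rw [← card_compl_pair_int i j hij]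
    calc ∑ k ∈ ({i, j} : Finset ι)ᶜ, ind G (insert k {i, j})
        ≤ ∑ k ∈ ({i, j} : Finset ι)ᶜ, (1 : ℤ) :=
          Finset.sum_le_sum (fun k _ => ind_le_one G _)
      _ = ((({i, j} : Finset ι)ᶜ).card : ℤ) := by
          rw [Finset.sum_const, nsmul_eq_mul, mul_one]

theorem toRaw_nu_range (G : Finset ι → ℤ) (t : ι → ℤ) (i j : ι) (hij : i ≠ j) :
    0 ≤ (toRaw G t).ν i j ∧
      (toRaw G t).ν i j ≤ ((toRaw G t).n - 2) * ((toRaw G t).n - 3) := by
  show 0 ≤ ∑ k ∈ ({i, j} : Finset ι)ᶜ, ∑ l ∈ (insert k ({i, j} : Finset ι))ᶜ,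
      ind G (insert l (insert k {i, j})) ∧
    ∑ k ∈ ({i, j} : Finset ι)ᶜ, ∑ l ∈ (insert k ({i, j} : Finset ι))ᶜ,
      ind G (insert l (insert k {i, j}))
      ≤ ((Fintype.card ι : ℤ) - 2) * ((Fintype.card ι : ℤ) - 3)
  constructor
  · exact Finset.sum_nonneg (fun k _ => Finset.sum_nonneg (fun l _ => ind_nonneg G _))
  · calc ∑ k ∈ ({i, j} : Finset ι)ᶜ, ∑ l ∈ (insert k ({i, j} : Finset ι))ᶜ,
          ind G (insert l (insert k {i, j}))
        ≤ ∑ k ∈ ({i, j} : Finset ι)ᶜ, ((Fintype.card ι : ℤ) - 3) := by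
          refine Finset.sum_le_sum (fun k hk => ?_)
          rw [← card_compl_triple_int i j k hij hk]
          calc ∑ l ∈ (insert k ({i, j} : Finset ι))ᶜ, ind G (insert l (insert k {i, j}))
              ≤ ∑ l ∈ (insert k ({i, j} : Finset ι))ᶜ, (1 : ℤ) :=
                Finset.sum_le_sum (fun l _ => ind_le_one G _)
            _ = (((insert k ({i, j} : Finset ι))ᶜ).card : ℤ) := by
                rw [Finset.sum_const, nsmul_eq_mul, mul_one]
      _ = ((Fintype.card ι : ℤ) - 2) * ((Fintype.card ι : ℤ) - 3) := by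
          rw [Finset.sum_const, nsmul_eq_mul, card_compl_pair_int i j hij]

end Vale.Agent.Lib.P047.Five
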