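import Vale.Agent.Lib.P047.Five.Book0

namespace Vale.Agent.Lib.P047.Five

open Finset
open scoped symmDiff

variable {ι : Type*} [Fintype ι] [DecidableEq ι] {G : Finset ι → ℤ} {t : ι → ℤ}

/-- The neighbour sum at the top point, in count form. -/
private theorem bookE0_nb (hG : Good G t) :
    nb G ∅ = G ∅ * ((Fintype.card ι : ℤ) - 2 * ∑ k, ind G {k}) := by
  rw [nb_empty, Finset.sum_congr rfl (fun k _ => hG.G_eq {k}), ← Finset.mul_sum,
    Finset.sum_sub_distrib, Finset.sum_const, Finset.card_univ, ← Finset.mul_sum,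
    nsmul_eq_mul, mul_one]

/-- The inner sum of the iterated neighbour sum at the top point, in count form. -/
private theorem bookE0_inner (hG : Good G t) (k : ι) :
    G ∅ + ∑ l ∈ univ.erase k, G {k, l}
      = G ∅ * ((Fintype.card ι : ℤ) - 2 * ∑ l ∈ univ.erase k, ind G {k, l}) := by
  rw [Finset.sum_congr rfl (fun l _ => hG.G_eq {k, l}), ← Finset.mul_sum,
    Finset.sum_sub_distrib, Finset.sum_const, ← Finset.mul_sum, nsmul_eq_mul, card_erase_int]
  ring

/-- The iterated neighbour sum at the top point, in count form. -/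
private theorem bookE0_nb_nb (hG : Good G t) :
    nb (nb G) ∅ = G ∅ * ((Fintype.card ι : ℤ) ^ 2
      - 2 * ∑ k, ∑ l ∈ univ.erase k, ind G {k, l}) := by
  rw [nb_nb_empty, Finset.sum_congr rfl (fun k _ => bookE0_inner hG k), ← Finset.mul_sum,
    Finset.sum_sub_distrib, Finset.sum_const, Finset.card_univ, ← Finset.mul_sum,
    nsmul_eq_mul]
  ring

/-- The level-one identity at the top point, in count form. -/
theorem Good.E0 (hG : Good G t) :
    (toRaw G t).ε * (toRaw G t).K =
      30 + 2 * ((toRaw G t).n - 8) * (toRaw G t).mu - ∑ i, (toRaw G t).deg i := by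
  have hlvl := hG.lvl ∅
  have hsq := hG.eps_sq
  have h3 : (∑ l, if l ∈ (∅ : Finset ι) then -t l else t l) = ∑ l, t l := by simp
  rw [bookE0_nb hG, bookE0_nb_nb hG, h3] at hlvl
  show G ∅ * ∑ l, t l = 30 + 2 * ((Fintype.card ι : ℤ) - 8) * (∑ i, ind G {i})
    - ∑ i, ∑ j ∈ univ.erase i, ind G {i, j}
  generalize (∑ l, t l) = K at *
  generalize (∑ i, ind G {i}) = mu at *
  generalize (∑ i, ∑ j ∈ univ.erase i, ind G {i, j}) = P at *
  generalize (Fintype.card ι : ℤ) = n at *
  generalize G ∅ = ε at *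
  have key : 2 * (ε * K) = 2 * (30 + 2 * (n - 8) * mu - P) := by
    linear_combination (-ε) * hlvl + (60 + 4 * (n - 8) * mu - 2 * P) * hsq
  linarith

end Vale.Agent.Lib.P047.Five
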