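import Vale.Agent.Lib.P047.Five.Loc

/-!
# P047, degree five: the set-function form of a Boolean function around its top point

`G R` stands for the value of the Boolean function at the point obtained from the top point
by flipping the coordinates in `R`.
-/

namespace Vale.Agent.Lib.P047.Five

open Finset
open scoped symmDiff

variable {ι : Type*} [Fintype ι] [DecidableEq ι]

/-- Sum over the neighbours: `nb G R = ∑_k G (R ∆ {k})`. -/
def nb (G : Finset ι → ℤ) (R : Finset ι) : ℤ := ∑ k, G (R ∆ {k})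

/-- The second difference in the directions `i`, `j`. -/
def dd2 (G : Finset ι → ℤ) (i j : ι) (R : Finset ι) : ℤ :=
  G R - G (R ∆ {i}) - G (R ∆ {j}) + G ((R ∆ {i}) ∆ {j})

/-- `W G i j` is `16 ∑_k ĝ({i,j,k})` in local form (signs normalised). -/
def W (G : Finset ι → ℤ) (i j : ι) : ℤ :=
  nb (dd2 G i j) ∅ - ((Fintype.card ι : ℤ) - 10) * dd2 G i j ∅

/-- The properties of the set function of a minimal counterexample. -/
structure Good (G : Finset ι → ℤ) (t : ι → ℤ) : Prop where
  pm : ∀ R, G R = 1 ∨ G R = -1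
  lvl : ∀ R, ((Fintype.card ι : ℤ) - 6) * ((Fintype.card ι : ℤ) - 10) * G R
      - 2 * ((Fintype.card ι : ℤ) - 8) * nb G R + nb (nb G) R
      = 2 * ∑ l, (if l ∈ R then -t l else t l)
  id1 : ∀ i j, i ≠ j → (∑ l, t l) + W G i j ≤ 34
  id2 : ∀ i j, i ≠ j → (∑ l, t l) - 2 * t j - W G i j ≤ 34

/-- Indicator of a minus point. -/
def ind (G : Finset ι → ℤ) (R : Finset ι) : ℤ := if G R = G ∅ then 0 else 1

/-- The count-level local data of a set function. -/
def toRaw (G : Finset ι → ℤ) (t : ι → ℤ) : Raw ι where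
  ε := G ∅
  K := ∑ l, t l
  t := t
  a := fun i => ind G {i}
  h := fun i j => ind G {i, j}
  τ := fun i j => ∑ k ∈ ({i, j} : Finset ι)ᶜ, ind G (insert k {i, j})
  ν := fun i j => ∑ k ∈ ({i, j} : Finset ι)ᶜ, ∑ l ∈ (insert k ({i, j} : Finset ι))ᶜ,
    ind G (insert l (insert k {i, j}))

end Vale.Agent.Lib.P047.Five
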