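import Mathlib

/-!
# P047, degree five: count-level local data around the top point

`Raw ι` records, for an odd Boolean function `g` of degree at most five on the cube `{-1,1}^ι`
and its top point `s`, the following integers (a point at distance `r` from `s` is called
a minus point if `g` differs there from `g s`):

* `ε = g s`, `t i = 16 |ĝ({i})|`, `K = ∑ t i`;
* `a i = 1` iff the neighbour `s^i` is a minus point;
* `h i j = 1` iff `s^{ij}` is a minus point;
* `τ i j` = number of minus points `s^{ijk}`;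
* `ν i j` = twice the number of minus points `s^{ijkl}`.

`Valid L` collects the relations between these numbers that hold for a minimal
counterexample to the bound `K ≤ 34`.
-/

namespace Vale.Agent.Lib.P047.Five

open Finset

variable {ι : Type*} [Fintype ι] [DecidableEq ι]

/-- The raw local data. -/
structure Raw (ι : Type*) where
  ε : ℤ
  K : ℤ
  t : ι → ℤ
  a : ι → ℤ
  h : ι → ι → ℤ
  τ : ι → ι → ℤ
  ν : ι → ι → ℤ

namespace Raw

variable (L : Raw ι)

/-- The number of variables, as an integer. -/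
def n (_L : Raw ι) : ℤ := (Fintype.card ι : ℤ)

/-- The number of minus neighbours of the top point. -/
def mu : ℤ := ∑ i, L.a i

/-- The number of minus points `s^{ij}` with `j ≠ i`. -/
def deg (i : ι) : ℤ := ∑ j ∈ univ.erase i, L.h i j

/-- The excess `e i j = -(16/2) ∑_k ĝ({i,j,k})` in local form. -/
def e (i j : ι) : ℤ :=
  L.ε * (L.τ i j - L.deg i - L.deg j + L.mu - (L.n - 10) * L.h i j + (L.n - 9) * (L.a i + L.a j))

end Raw

/-- The relations satisfied by the local data of a minimal counterexample. -/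
structure Valid (L : Raw ι) : Prop where
  hε : L.ε = 1 ∨ L.ε = -1
  ha : ∀ i, L.a i = 0 ∨ L.a i = 1
  hh : ∀ i j, L.h i j = 0 ∨ L.h i j = 1
  hsymm : ∀ i j, L.h i j = L.h j i
  τsymm : ∀ i j, L.τ i j = L.τ j i
  hτ : ∀ i j, i ≠ j → 0 ≤ L.τ i j ∧ L.τ i j ≤ L.n - 2
  hν : ∀ i j, i ≠ j → 0 ≤ L.ν i j ∧ L.ν i j ≤ (L.n - 2) * (L.n - 3)
  hK : ∑ i, L.t i = L.K
  E0 : L.ε * L.K = 30 + 2 * (L.n - 8) * L.mu - ∑ i, L.deg i
  E1 : ∀ i, L.ε * (L.K - 2 * L.t i) =
    30 + 2 * (L.n - 8) * L.deg i - 2 * L.mu - (∑ j ∈ univ.erase i, L.τ i j)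
      - (L.n ^ 2 - 15 * L.n + 58) * L.a i
  E2 : ∀ i j, i ≠ j → L.ε * (L.K - 2 * L.t i - 2 * L.t j) =
    30 - (L.n - 7) * (L.n - 8) * L.h i j + 2 * (L.n - 8) * (L.a i + L.a j + L.τ i j)
      - 2 * (L.deg i + L.deg j) - L.ν i j
  I1 : ∀ i j, i ≠ j → L.K - 2 * L.e i j ≤ 34
  I2 : ∀ i j, i ≠ j → L.K - 2 * L.t j + 2 * L.e i j ≤ 34

end Vale.Agent.Lib.P047.Five
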