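import Vale.Agent.Lib.P047.Five.Sums

/-!
# P047, degree five: at most eleven variables
-/

namespace Vale.Agent.Lib.P047.Five

open Finset

variable {ι : Type*} [Fintype ι] [DecidableEq ι] {L : Raw ι}

/-- The arithmetic core: the two summation identities have no solution within the ranges of
the counts when there are at most eleven variables. -/
private theorem small_arith (c : ℕ) (hc : c ≤ 11) (ε K mu P S : ℤ) (hε : ε = 1 ∨ ε = -1)
    (hK : 36 ≤ K) (hmu0 : 0 ≤ mu) (hmu1 : mu ≤ c) (hP0 : 0 ≤ P)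
    (hP1 : P ≤ (c : ℤ) * ((c : ℤ) - 1)) (hS0 : 0 ≤ S)
    (hS1 : S ≤ (c : ℤ) * (((c : ℤ) - 1) * ((c : ℤ) - 2)))
    (hE0 : ε * K = 30 + 2 * ((c : ℤ) - 8) * mu - P)
    (hS : S = 60 + 3 * ((c : ℤ) - 6) * (30 - ε * K) + 3 * mu * ((c : ℤ) - 6) * ((c : ℤ) - 11)) :
    False := by
  rcases hε with he | he
  · rw [he] at hE0 hS
    interval_cases c <;> norm_num at hmu1 hP1 hS1 hE0 hS <;> omega
  · rw [he] at hE0 hS
    interval_cases c <;> norm_num at hmu1 hP1 hS1 hE0 hS <;> omega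

/-- Valid local data with `K ≥ 36` do not exist on at most eleven variables. -/
theorem Valid.small (hL : Valid L) (hK : 36 ≤ L.K) (hn : Fintype.card ι ≤ 11) : False := by
  have hcn : L.n = ((Fintype.card ι : ℕ) : ℤ) := rfl
  have hP0 : 0 ≤ ∑ i, L.deg i := Finset.sum_nonneg fun i _ => (hL.deg_range i).1
  have hP1 : ∑ i, L.deg i ≤ L.n * (L.n - 1) := by
    calc ∑ i, L.deg i ≤ ∑ _i : ι, (L.n - 1) :=
          Finset.sum_le_sum fun i _ => (hL.deg_range i).2
      _ = L.n * (L.n - 1) := by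
          rw [Finset.sum_const, Finset.card_univ, nsmul_eq_mul]
          rfl
  have hS0 : 0 ≤ ∑ i, ∑ j ∈ univ.erase i, L.τ i j :=
    Finset.sum_nonneg fun i _ => (hL.sum_tau_range i).1
  have hS1 : ∑ i, ∑ j ∈ univ.erase i, L.τ i j ≤ L.n * ((L.n - 1) * (L.n - 2)) := by
    calc ∑ i, ∑ j ∈ univ.erase i, L.τ i j ≤ ∑ _i : ι, ((L.n - 1) * (L.n - 2)) :=
          Finset.sum_le_sum fun i _ => (hL.sum_tau_range i).2
      _ = L.n * ((L.n - 1) * (L.n - 2)) := by
          rw [Finset.sum_const, Finset.card_univ, nsmul_eq_mul]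
          rfl
  have hE0 := hL.E0
  have hS := hL.sum_sum_tau
  have hmu := hL.mu_range
  rw [hcn] at hP1 hS1 hE0 hS hmu
  exact small_arith (Fintype.card ι) hn L.ε L.K L.mu (∑ i, L.deg i)
    (∑ i, ∑ j ∈ univ.erase i, L.τ i j) hL.hε hK hmu.1 hmu.2 hP0 hP1 hS0 hS1 hE0 hS

end Vale.Agent.Lib.P047.Five
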