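import Vale.Agent.Lib.P047.Five.Loc

/-!
# P047, degree five: summation identities for valid local data
-/

namespace Vale.Agent.Lib.P047.Five

open Finset

variable {ι : Type*} [Fintype ι] [DecidableEq ι]

/-- The number of indices other than `i`. -/
private lemma card_erase_cast (i : ι) :
    ((univ.erase i).card : ℤ) = (Fintype.card ι : ℤ) - 1 := by
  rw [Finset.card_erase_of_mem (mem_univ i), Finset.card_univ,
    Nat.cast_sub (Fintype.card_pos_iff.mpr ⟨i⟩), Nat.cast_one]

/-- The sum of a constant over the indices other than `i`. -/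
private lemma sum_erase_const (c : ℤ) (i : ι) :
    ∑ _j ∈ univ.erase i, c = ((Fintype.card ι : ℤ) - 1) * c := by
  rw [Finset.sum_const, nsmul_eq_mul, card_erase_cast]

/-- Double counting: `∑_i ∑_{j ≠ i} φ i = (n - 1) ∑_i φ i`. -/
theorem sum_erase_left (φ : ι → ℤ) :
    ∑ i, ∑ _j ∈ univ.erase i, φ i = ((Fintype.card ι : ℤ) - 1) * ∑ i, φ i := by
  rw [Finset.mul_sum]
  apply Finset.sum_congr rfl
  intro i _
  exact sum_erase_const (φ i) i

/-- Double counting: `∑_i ∑_{j ≠ i} φ j = (n - 1) ∑_i φ i`. -/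
theorem sum_erase_right (φ : ι → ℤ) :
    ∑ i, ∑ j ∈ univ.erase i, φ j = ((Fintype.card ι : ℤ) - 1) * ∑ i, φ i := by
  have h : ∀ i : ι, ∑ j ∈ univ.erase i, φ j = ∑ j, φ j - φ i := fun i =>
    Finset.sum_erase_eq_sub (mem_univ i)
  rw [Finset.sum_congr rfl (fun i _ => h i), Finset.sum_sub_distrib, Finset.sum_const,
    Finset.card_univ, nsmul_eq_mul]
  ring

/-- `∑_{j ≠ i} φ j = ∑_j φ j - φ i`. -/
theorem sum_erase_eq (φ : ι → ℤ) (i : ι) :
    ∑ j ∈ univ.erase i, φ j = ∑ j, φ j - φ i :=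
  Finset.sum_erase_eq_sub (mem_univ i)

/-- A symmetric integer matrix has an even sum of off-diagonal entries. -/
private lemma even_sum_offdiag (H : ι → ι → ℤ) (hH : ∀ i j, H i j = H j i) :
    Even (∑ i, ∑ j ∈ univ.erase i, H i j) := by
  have h1 : ∑ i, ∑ j ∈ univ.erase i, H i j =
      ∑ p : ι × ι, if p.2 ≠ p.1 then H p.1 p.2 else 0 := by
    rw [← Finset.univ_product_univ, Finset.sum_product]
    apply Finset.sum_congr rfl
    intro i _
    rw [← Finset.filter_ne' univ i, Finset.sum_filter]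
  have h2 : ∑ p : ι × ι, (((if p.2 ≠ p.1 then H p.1 p.2 else 0 : ℤ)) : ZMod 2) = 0 := by
    apply Finset.sum_involution (fun p _ => Prod.swap p)
    · intro p _
      by_cases hp : p.2 = p.1
      · simp [hp]
      · have hp' : ¬ p.1 = p.2 := fun h => hp h.symm
        simp only [Prod.fst_swap, Prod.snd_swap, ne_eq, hp, hp', not_false_eq_true, if_true]
        rw [hH p.2 p.1]
        exact CharTwo.add_self_eq_zero _
    · intro p _ hne hswap
      apply hne
      have hp : p.2 = p.1 := by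
        have := congrArg Prod.fst hswap
        simpa using this
      simp [hp]
    · intro p _
      exact mem_univ _
    · intro p _
      exact Prod.swap_swap p
  rw [h1, even_iff_two_dvd]
  have h3 := (ZMod.intCast_zmod_eq_zero_iff_dvd
    (∑ p : ι × ι, if p.2 ≠ p.1 then H p.1 p.2 else 0) 2).mp (by rw [Int.cast_sum]; exact h2)
  exact_mod_cast h3

variable {L : Raw ι}

theorem Valid.eps_sq (hL : Valid L) : L.ε * L.ε = 1 := by
  rcases hL.hε with h | h <;> (rw [h]; norm_num)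

theorem Valid.e_symm (hL : Valid L) (i j : ι) : L.e i j = L.e j i := by
  unfold Raw.e
  rw [hL.τsymm i j, hL.hsymm i j]
  ring

/-- The number `∑_i deg i` of ordered minus pairs is even. -/
theorem Valid.sum_deg_even (hL : Valid L) : Even (∑ i, L.deg i) :=
  even_sum_offdiag L.h hL.hsymm

theorem Valid.K_even (hL : Valid L) : Even L.K := by
  obtain ⟨r, hr⟩ := hL.sum_deg_even
  have h0 := hL.E0
  rcases hL.hε with h | h
  · rw [h] at h0
    exact ⟨15 + (L.n - 8) * L.mu - r, by linear_combination h0 - hr⟩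
  · rw [h] at h0
    exact ⟨-(15 + (L.n - 8) * L.mu - r), by linear_combination (-1 : ℤ) * h0 + hr⟩

/-- The sum of the excesses over the indices other than `i`, before substitution. -/
private lemma Valid.sum_e_raw (i : ι) :
    ∑ j ∈ univ.erase i, L.e i j =
      L.ε * (∑ j ∈ univ.erase i, L.τ i j - (L.n - 1) * L.deg i - (∑ j, L.deg j - L.deg i)
        + (L.n - 1) * L.mu - (L.n - 10) * L.deg i
        + (L.n - 9) * ((L.n - 1) * L.a i + (L.mu - L.a i))) := by
  have h1 : ∀ j : ι, L.e i j = L.ε * L.τ i j + (-(L.ε * L.deg i)) + (-L.ε) * L.deg j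
      + L.ε * L.mu + (-(L.ε * (L.n - 10))) * L.h i j + L.ε * (L.n - 9) * L.a i
      + (L.ε * (L.n - 9)) * L.a j := by
    intro j
    unfold Raw.e
    ring
  rw [Finset.sum_congr rfl (fun j _ => h1 j)]
  simp only [Finset.sum_add_distrib, ← Finset.mul_sum]
  rw [sum_erase_const, sum_erase_const, sum_erase_const, sum_erase_eq L.deg i,
    sum_erase_eq L.a i]
  unfold Raw.n Raw.mu
  have hdeg : ∑ j ∈ univ.erase i, L.h i j = L.deg i := rfl
  rw [hdeg]
  ring

/-- (D1) -/
theorem Valid.sum_e (hL : Valid L) (i : ι) :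
    ∑ j ∈ univ.erase i, L.e i j =
      2 * L.t i + 4 * L.ε * (L.mu - L.deg i + (L.n - 10) * L.a i) := by
  rw [Valid.sum_e_raw i]
  have h0 := hL.E0
  have h1 := hL.E1 i
  have h2 := hL.eps_sq
  linear_combination L.ε * h1 - L.ε * h0 + (2 * L.t i) * h2

/-- (D2) -/
theorem Valid.sum_sum_e (hL : Valid L) :
    ∑ i, ∑ j ∈ univ.erase i, L.e i j = 6 * L.K + 24 * L.ε * L.mu - 120 * L.ε := by
  rw [Finset.sum_congr rfl (fun i _ => hL.sum_e i)]
  have hsum : ∑ i, (2 * L.t i + 4 * L.ε * (L.mu - L.deg i + (L.n - 10) * L.a i)) =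
      2 * ∑ i, L.t i + 4 * L.ε * (L.n * L.mu - ∑ i, L.deg i + (L.n - 10) * ∑ i, L.a i) := by
    have h1 : ∀ i : ι, 2 * L.t i + 4 * L.ε * (L.mu - L.deg i + (L.n - 10) * L.a i) =
        2 * L.t i + 4 * L.ε * L.mu + (-(4 * L.ε)) * L.deg i
          + (4 * L.ε * (L.n - 10)) * L.a i := by
      intro i
      ring
    rw [Finset.sum_congr rfl (fun i _ => h1 i)]
    simp only [Finset.sum_add_distrib, ← Finset.mul_sum]
    rw [Finset.sum_const, Finset.card_univ, nsmul_eq_mul]
    unfold Raw.n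
    ring
  rw [hsum, hL.hK]
  have h0 := hL.E0
  have h2 := hL.eps_sq
  have hmu : ∑ i, L.a i = L.mu := rfl
  rw [hmu]
  linear_combination (-(4 * L.ε)) * h0 + (4 * L.K) * h2

/-- (D3) -/
theorem Valid.sum_sum_tau (hL : Valid L) :
    ∑ i, ∑ j ∈ univ.erase i, L.τ i j =
      60 + 3 * (L.n - 6) * (30 - L.ε * L.K) + 3 * L.mu * (L.n - 6) * (L.n - 11) := by
  have h1 : ∀ i : ι, ∑ j ∈ univ.erase i, L.τ i j =
      (30 - 2 * L.mu - L.ε * L.K) + (2 * (L.n - 8)) * L.deg i
        + (-(L.n ^ 2 - 15 * L.n + 58)) * L.a i + (2 * L.ε) * L.t i := by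
    intro i
    have h := hL.E1 i
    linear_combination h
  rw [Finset.sum_congr rfl (fun i _ => h1 i)]
  simp only [Finset.sum_add_distrib, ← Finset.mul_sum]
  rw [Finset.sum_const, Finset.card_univ, nsmul_eq_mul, hL.hK]
  have h0 := hL.E0
  have hmu : ∑ i, L.a i = L.mu := rfl
  have hn : (Fintype.card ι : ℤ) = L.n := rfl
  rw [hmu, hn]
  linear_combination (2 * (L.n - 8)) * h0

/-- `τ` in terms of `e`. -/
theorem Valid.tau_eq (hL : Valid L) (i j : ι) :
    L.τ i j = L.ε * L.e i j + L.deg i + L.deg j - L.mu + (L.n - 10) * L.h i j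
      - (L.n - 9) * (L.a i + L.a j) := by
  have h2 := hL.eps_sq
  unfold Raw.e
  linear_combination (-(L.τ i j - L.deg i - L.deg j + L.mu - (L.n - 10) * L.h i j
    + (L.n - 9) * (L.a i + L.a j))) * h2

/-- `ν` in terms of `e` (equation `E2` with `τ` eliminated). -/
theorem Valid.nu_eq (hL : Valid L) (i j : ι) (hij : i ≠ j) :
    L.ν i j = 30 - L.ε * (L.K - 2 * L.t i - 2 * L.t j) + (L.n - 8) * (L.n - 13) * L.h i j
      - 2 * (L.n - 8) * (L.n - 10) * (L.a i + L.a j) + 2 * (L.n - 8) * L.ε * L.e i j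
      + 2 * (L.n - 9) * (L.deg i + L.deg j) - 2 * (L.n - 8) * L.mu := by
  have h2 := hL.E2 i j hij
  have h3 := hL.tau_eq i j
  linear_combination h2 + 2 * (L.n - 8) * h3

/-- Ranges of the basic counts. -/
theorem Valid.mu_range (hL : Valid L) : 0 ≤ L.mu ∧ L.mu ≤ L.n := by
  unfold Raw.mu Raw.n
  constructor
  · apply Finset.sum_nonneg
    intro i _
    rcases hL.ha i with h | h <;> omega
  · have h1 : ∑ i, L.a i ≤ ∑ _i : ι, (1 : ℤ) := by
      apply Finset.sum_le_sum
      intro i _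
      rcases hL.ha i with h | h <;> omega
    rw [Finset.sum_const, Finset.card_univ, nsmul_eq_mul, mul_one] at h1
    exact h1

theorem Valid.deg_range (hL : Valid L) (i : ι) : 0 ≤ L.deg i ∧ L.deg i ≤ L.n - 1 := by
  unfold Raw.deg Raw.n
  constructor
  · apply Finset.sum_nonneg
    intro j _
    rcases hL.hh i j with h | h <;> omega
  · have h1 : ∑ j ∈ univ.erase i, L.h i j ≤ ∑ _j ∈ univ.erase i, (1 : ℤ) := by
      apply Finset.sum_le_sum
      intro j _
      rcases hL.hh i j with h | h <;> omega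
    rw [sum_erase_const, mul_one] at h1
    exact h1

theorem Valid.sum_tau_range (hL : Valid L) (i : ι) :
    0 ≤ ∑ j ∈ univ.erase i, L.τ i j ∧
      ∑ j ∈ univ.erase i, L.τ i j ≤ (L.n - 1) * (L.n - 2) := by
  constructor
  · apply Finset.sum_nonneg
    intro j hj
    exact (hL.hτ i j (Finset.ne_of_mem_erase hj).symm).1
  · have h1 : ∑ j ∈ univ.erase i, L.τ i j ≤ ∑ _j ∈ univ.erase i, (L.n - 2) := by
      apply Finset.sum_le_sum
      intro j hj
      exact (hL.hτ i j (Finset.ne_of_mem_erase hj).symm).2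
    rw [sum_erase_const] at h1
    exact h1

end Vale.Agent.Lib.P047.Five
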